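import Mathlib

/-!
# Orthogonally invariant Ising spin glasses: definitions
-/

open MeasureTheory Filter Topology Matrix
open scoped BoundedContinuousFunction

namespace Vale.Agent.P166

/-- The orthogonal group `O(N)`. -/
abbrev ON (N : ℕ) := Matrix.orthogonalGroup (Fin N) ℝ

theorem isCompact_orthogonalGroup (N : ℕ) :
    IsCompact (Matrix.orthogonalGroup (Fin N) ℝ : Set (Matrix (Fin N) (Fin N) ℝ)) := by
  have h1 : IsCompact (Set.pi Set.univ fun _ : Fin N =>
      Set.pi Set.univ fun _ : Fin N => Set.Icc (-1 : ℝ) 1) :=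
    isCompact_univ_pi fun _ => isCompact_univ_pi fun _ => isCompact_Icc
  refine IsCompact.of_isClosed_subset h1 ?_ ?_
  · exact isClosed_unitary
  · intro U hU i _ j _
    have hU' := (mem_orthogonalGroup_iff (n := Fin N) (R := ℝ)).1 hU
    have h2 : ∑ k, U i k * U i k = 1 := by
      simpa [Matrix.mul_apply] using congrFun (congrFun hU' i) i
    have h3 : U i j * U i j ≤ 1 := h2 ▸ Finset.single_le_sum
      (f := fun k => U i k * U i k) (fun k _ => mul_self_nonneg _) (Finset.mem_univ j)
    constructor <;> nlinarith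

instance instCompactON (N : ℕ) : CompactSpace (ON N) :=
  isCompact_iff_compactSpace.1 (isCompact_orthogonalGroup N)

instance instMeasurableON (N : ℕ) : MeasurableSpace (ON N) := borel _

instance instBorelON (N : ℕ) : BorelSpace (ON N) := ⟨rfl⟩

/-- The Haar probability measure of `O(N)`. -/
noncomputable def haarON (N : ℕ) : Measure (ON N) := Measure.haarMeasure ⊤

instance instHaarON (N : ℕ) : (haarON N).IsHaarMeasure :=
  Measure.isHaarMeasure_haarMeasure _

instance instProbON (N : ℕ) : IsProbabilityMeasure (haarON N) :=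
  ⟨by simpa [haarON] using Measure.haarMeasure_self (K₀ := (⊤ : TopologicalSpace.PositiveCompacts (ON N)))⟩

/-- The `±1` spin vector of `σ`. -/
def spin {N : ℕ} (σ : Fin N → Bool) : Fin N → ℝ := fun i => if σ i then 1 else -1

/-- The pressure with couplings `J = Uᵀ diag(lam) U` and uniform spin prior. -/
noncomputable def pressure (β : ℝ) {N : ℕ} (lam : Fin N → ℝ) (U : ON N) : ℝ :=
  (1 / (N : ℝ)) * Real.log ((1 / (2 : ℝ) ^ N) * ∑ σ : Fin N → Bool,
    Real.exp (β / 2 * (spin σ ⬝ᵥ
      (((U : Matrix (Fin N) (Fin N) ℝ)ᵀ * Matrix.diagonal lam * (U : Matrix (Fin N) (Fin N) ℝ))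
        *ᵥ spin σ))))

/-- The hypotheses of the problem on the eigenvalues: weak convergence of the empirical
measures to `μ`, and convergence of the two extreme eigenvalues to the ends of its support. -/
def Admissible (μ : Measure ℝ) (Λ : (N : ℕ) → Fin N → ℝ) : Prop :=
  (∀ f : ℝ →ᵇ ℝ, Tendsto (fun N : ℕ => (1 / (N : ℝ)) * ∑ i, f (Λ N i)) atTop (𝓝 (∫ x, f x ∂μ))) ∧
  Tendsto (fun N : ℕ => ⨅ i, Λ N i) atTop (𝓝 (sInf μ.support)) ∧
  Tendsto (fun N : ℕ => ⨆ i, Λ N i) atTop (𝓝 (sSup μ.support))

end Vale.Agent.P166
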