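import Vale.Agent.P166.Basic

/-!
# The mean pressure depends asymptotically only on the limiting spectral law
-/

open MeasureTheory Filter Topology Matrix
open scoped BoundedContinuousFunction

namespace Vale.Agent.P166

variable {N : ℕ}

/-- A continuous ramp from `0` at `g` to `1` at `g + s`. -/
noncomputable def ramp (g s x : ℝ) : ℝ := max 0 (min 1 ((x - g) / s))

theorem ramp_nonneg (g s x : ℝ) : 0 ≤ ramp g s x := le_max_left _ _

theorem ramp_le_one (g s x : ℝ) : ramp g s x ≤ 1 := max_le zero_le_one (min_le_left _ _)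

theorem ramp_eq_zero {g s x : ℝ} (hs : 0 < s) (h : x ≤ g) : ramp g s x = 0 :=
  max_eq_left ((min_le_right _ _).trans (div_nonpos_of_nonpos_of_nonneg (by linarith) hs.le))

theorem ramp_eq_one {g s x : ℝ} (hs : 0 < s) (h : g + s ≤ x) : ramp g s x = 1 := by
  rw [ramp, min_eq_left, max_eq_right zero_le_one]
  rw [le_div_iff₀ hs]; linarith

theorem continuous_ramp (g s : ℝ) : Continuous (ramp g s) := by
  unfold ramp; fun_prop

theorem sum_ramp_le {v : Fin N → ℝ} (hv : Monotone v) {g s : ℝ} (hs : 0 < s) {j : Fin N}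
    (hj : v j ≤ g) : ∑ i, ramp g s (v i) + j + 1 ≤ N := by
  have h : ∑ i, ramp g s (v i) ≤ ∑ i : Fin N, (if j < i then (1:ℝ) else 0) := by
    refine Finset.sum_le_sum fun i _ => ?_
    split_ifs with h
    · exact ramp_le_one _ _ _
    · rw [ramp_eq_zero hs ((hv (not_lt.1 h)).trans hj)]
  have hc : (Finset.univ.filter fun i : Fin N => j < i).card + j.val + 1 = N := by
    have : (Finset.univ.filter fun i : Fin N => j < i) = Finset.Ioi j := by ext; simp
    rw [this, Fin.card_Ioi]; omega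
  rw [Finset.sum_boole] at h
  have hc' := congrArg (Nat.cast : ℕ → ℝ) hc
  push_cast at hc'
  linarith

theorem le_sum_ramp {u : Fin N → ℝ} (hu : Monotone u) {g s : ℝ} (hs : 0 < s) {i : Fin N}
    (hi : g + s ≤ u i) : (N : ℝ) ≤ ∑ j, ramp g s (u j) + i := by
  have h : ∑ j : Fin N, (if i ≤ j then (1:ℝ) else 0) ≤ ∑ j, ramp g s (u j) := by
    refine Finset.sum_le_sum fun j _ => ?_
    split_ifs with h
    · rw [ramp_eq_one hs (hi.trans (hu h))]
    · exact ramp_nonneg _ _ _
  have hc : (Finset.univ.filter fun j : Fin N => i ≤ j).card + i.val = N := by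
    have : (Finset.univ.filter fun j : Fin N => i ≤ j) = Finset.Ici i := by ext; simp
    rw [this, Fin.card_Ici]; omega
  rw [Finset.sum_boole] at h
  have hc' := congrArg (Nat.cast : ℕ → ℝ) hc
  push_cast at hc'
  linarith

/-- Changing a few values inside a large block at the top costs little. -/
theorem meanP_block_raise {β : ℝ} (hβ : 0 ≤ β) (v : Fin N → ℝ) {a b : ℝ} (hab : a ≤ b)
    {M K : Finset (Fin N)} (hMK : Disjoint M K) (hK : K.Nonempty) :
    meanP β (fun i => if i ∈ M ∪ K then b else v i) ≤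
      meanP β (fun i => if i ∈ M then a else if i ∈ K then b else v i) +
        β / 2 * ((b - a) * (M.card / (M.card + K.card : ℝ))) := by
  set w := fun i => if i ∈ M then a else if i ∈ K then b else v i with hw
  have hT : (M ∪ K).Nonempty := hK.mono Finset.subset_union_right
  have hpos : (0:ℝ) < M.card + K.card := by
    have : (0:ℝ) < K.card := Nat.cast_pos.2 hK.card_pos
    positivity
  have hsum : ∑ j ∈ M ∪ K, w j = M.card * a + K.card * b := by
    rw [Finset.sum_union hMK]
    congr 1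
    · rw [Finset.sum_congr rfl fun j hj => show w j = a by simp [hw, hj]]; simp
    · rw [Finset.sum_congr rfl fun j hj => show w j = b by
        simp [hw, hj, Finset.disjoint_right.1 hMK hj]]
      simp
  have h1 := meanP_block_avg_le β w (M ∪ K) hT
  rw [Finset.card_union_of_disjoint hMK, hsum, Nat.cast_add] at h1
  have ht : 0 ≤ (b - a) * (M.card / (M.card + K.card : ℝ)) :=
    mul_nonneg (by linarith) (by positivity)
  refine le_trans (meanP_mono hβ ht fun i => ?_) (add_le_add h1 le_rfl)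
  by_cases hi : i ∈ M ∪ K
  · simp only [hi, if_true]
    refine le_of_eq ?_
    field_simp
    ring
  · simp only [hi, if_false]
    have hiM : i ∉ M := fun h => hi (Finset.mem_union_left _ h)
    have hiK : i ∉ K := fun h => hi (Finset.mem_union_right _ h)
    simp only [hw, hiM, hiK, if_false]
    linarith

theorem compare_sorted {β : ℝ} (hβ : 0 ≤ β) {u v : Fin N → ℝ} (hu : Monotone u) (hv : Monotone v)
    {a b s : ℝ} (hab : a ≤ b) (hs : 0 < s) (hu' : ∀ i, u i ∈ Set.Icc a b)
    (hv' : ∀ i, v i ∈ Set.Icc a b) {m k : ℕ} (hk : 0 < k) (hmk : m + k ≤ N)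
    (hcount : ∀ j : ℕ, (j : ℝ) * s ≤ b - a →
      ∑ i, ramp (a + ((j : ℝ) - 2) * s) s (u i) ≤ ∑ i, ramp (a + ((j : ℝ) - 2) * s) s (v i) + m)
    (htop : (k : ℝ) ≤ ∑ i, ramp (b - 2 * s) s (v i)) :
    meanP β u ≤ meanP β v + β / 2 * (6 * s) + β / 2 * ((b - a) * ((m : ℝ) / (m + k))) := by
  have : NeZero N := ⟨by omega⟩
  set e : Equiv.Perm (Fin N) := Equiv.addRight ((Fin.ofNat N m : Fin N)) with he
  have hev : ∀ i : Fin N, i.val + m < N → (e i).val = i.val + m := by
    intro i hi
    simp [he, Fin.val_add, Nat.mod_eq_of_lt hi]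
  have key1 : ∀ i : Fin N, i.val + m < N → u i ≤ v (e i) + 3 * s := by
    intro i hi
    by_contra hcon
    push Not at hcon
    set j := ⌊(u i - a) / s⌋₊ with hj
    have hnn : 0 ≤ (u i - a) / s := div_nonneg (by linarith [(hu' i).1]) hs.le
    have hj1 : (j : ℝ) * s ≤ u i - a := (le_div_iff₀ hs).1 (Nat.floor_le hnn)
    have hj2 : u i - a < ((j : ℝ) + 1) * s := (div_lt_iff₀ hs).1 (Nat.lt_floor_add_one _)
    have h1 := hcount j (by linarith [(hu' i).2])
    have h2 := le_sum_ramp hu hs (g := a + ((j : ℝ) - 2) * s) (i := i) (by nlinarith)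
    have h3 := sum_ramp_le hv hs (g := a + ((j : ℝ) - 2) * s) (j := e i) (by nlinarith)
    rw [hev i hi] at h3
    push_cast at h3
    linarith
  have key2 : ∀ i : Fin N, i.val + m < N → N ≤ i.val + m + k → b - 2 * s ≤ v (e i) := by
    intro i hi hik
    by_contra hcon
    push Not at hcon
    have h3 := sum_ramp_le hv hs (j := e i) hcon.le
    rw [hev i hi] at h3
    have h4 : (N:ℝ) ≤ i.val + m + k := by exact_mod_cast hik
    push_cast at h3
    linarith
  set M : Finset (Fin N) := Finset.univ.filter fun i => N ≤ i.val + m with hM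
  set K : Finset (Fin N) :=
    Finset.univ.filter fun i => i.val + m < N ∧ N ≤ i.val + m + k with hK
  have hd : Disjoint M K := by
    rw [Finset.disjoint_left]; intro i; simp [hM, hK]; omega
  have hMc : M.card = m := by
    have hc : M.map Fin.valEmbedding = Finset.Ico (N - m) N := by
      ext x
      simp only [hM, Finset.mem_map, Finset.mem_filter, Finset.mem_univ, true_and,
        Fin.valEmbedding_apply, Finset.mem_Ico]
      exact ⟨fun ⟨i, h, hx⟩ => by omega, fun h => ⟨⟨x, h.2⟩, by simp only; omega, rfl⟩⟩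
    have := congrArg Finset.card hc
    simp at this; omega
  have hKc : K.card = k := by
    have hc : K.map Fin.valEmbedding = Finset.Ico (N - m - k) (N - m) := by
      ext x
      simp only [hK, Finset.mem_map, Finset.mem_filter, Finset.mem_univ, true_and,
        Fin.valEmbedding_apply, Finset.mem_Ico]
      exact ⟨fun ⟨i, h, hx⟩ => by omega,
        fun h => ⟨⟨x, by omega⟩, by simp only; omega, rfl⟩⟩
    have := congrArg Finset.card hc
    simp at this; omega
  have hbr := meanP_block_raise hβ (v ∘ e) hab hd (Finset.card_pos.1 (hKc ▸ hk))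
  rw [hMc, hKc] at hbr
  have h1 : meanP β u ≤ meanP β (fun i => if i ∈ M ∪ K then b else (v ∘ e) i) + β / 2 * (3 * s) := by
    refine meanP_mono hβ (by linarith) fun i => ?_
    by_cases hi : i ∈ M ∪ K
    · simp only [hi, if_true]; linarith [(hu' i).2]
    · simp only [hi, if_false, Function.comp_apply]
      refine key1 i ?_
      simp [hM] at hi; omega
  have h2 : meanP β (fun i => if i ∈ M then a else if i ∈ K then b else (v ∘ e) i) ≤
      meanP β (v ∘ e) + β / 2 * (3 * s) := by
    refine meanP_mono hβ (by linarith) fun i => ?_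
    simp only [Function.comp_apply]
    split_ifs with hiM hiK
    · linarith [(hv' (e i)).1]
    · simp [hK] at hiK
      linarith [key2 i hiK.1 hiK.2]
    · linarith
  rw [meanP_perm] at h2
  linarith

theorem compare_pair {β : ℝ} (hβ : 0 ≤ β) {u v : Fin N → ℝ}
    {a b s : ℝ} (hab : a ≤ b) (hs : 0 < s) (hu' : ∀ i, u i ∈ Set.Icc a b)
    (hv' : ∀ i, v i ∈ Set.Icc a b) {m k : ℕ} (hk : 0 < k) (hmk : m + k ≤ N)
    (hcount : ∀ j : ℕ, (j : ℝ) * s ≤ b - a →
      ∑ i, ramp (a + ((j : ℝ) - 2) * s) s (u i) ≤ ∑ i, ramp (a + ((j : ℝ) - 2) * s) s (v i) + m)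
    (htop : (k : ℝ) ≤ ∑ i, ramp (b - 2 * s) s (v i)) :
    meanP β u ≤ meanP β v + β / 2 * (6 * s) + β / 2 * ((b - a) * ((m : ℝ) / (m + k))) := by
  have hsum : ∀ (w : Fin N → ℝ) (g : ℝ),
      ∑ i, ramp g s ((w ∘ Tuple.sort w) i) = ∑ i, ramp g s (w i) :=
    fun w g => Equiv.sum_comp (Tuple.sort w) fun i => ramp g s (w i)
  have h := compare_sorted hβ (Tuple.monotone_sort u) (Tuple.monotone_sort v) hab hs
    (fun i => hu' _) (fun i => hv' _) hk hmk
    (fun j hj => by rw [hsum, hsum]; exact hcount j hj) (by rw [hsum]; exact htop)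
  rwa [meanP_perm, meanP_perm] at h

theorem arith_mesh_t {β ε : ℝ} (hβ : 0 ≤ β) (hε : 0 < ε) :
    β / 2 * (ε / (4 * (β + 1))) ≤ ε / 8 := by
  rw [div_mul_div_comm, div_le_div_iff₀ (by positivity) (by norm_num)]
  nlinarith

theorem arith_mesh_s {β ε : ℝ} (hβ : 0 ≤ β) (hε : 0 < ε) :
    β / 2 * (6 * (ε / (12 * (β + 1)))) ≤ ε / 4 := by
  rw [mul_div_assoc', div_mul_div_comm, div_le_div_iff₀ (by positivity) (by norm_num)]
  nlinarith

theorem arith_mesh_r {β ε x r : ℝ} (hβ : 0 ≤ β) (hε : 0 < ε) (hx : 0 ≤ x) (hr0 : 0 ≤ r)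
    (hr : r ≤ ε / ((β + 1) * (x + 1))) :
    β / 2 * (x * r) ≤ ε / 2 := by
  rw [le_div_iff₀ (by positivity)] at hr
  have : β * x * r ≤ (β + 1) * (x + 1) * r :=
    mul_le_mul_of_nonneg_right (by nlinarith) hr0
  nlinarith

theorem meanP_le_eventually {β : ℝ} (hβ : 0 ≤ β) {μ : Measure ℝ} [IsProbabilityMeasure μ]
    (hμ : IsCompact μ.support) {Λ Λ' : (N : ℕ) → Fin N → ℝ} (hΛ : Admissible μ Λ)
    (hΛ' : Admissible μ Λ') {ε : ℝ} (hε : 0 < ε) :
    ∀ᶠ N in atTop, meanP β (Λ N) ≤ meanP β (Λ' N) + ε := by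
  set a := sInf μ.support with ha
  set b := sSup μ.support with hb
  have hne : μ.support.Nonempty := Measure.nonempty_support (IsProbabilityMeasure.ne_zero μ)
  have hbmem : b ∈ μ.support := hμ.sSup_mem hne
  have hab : a ≤ b := csInf_le hμ.bddBelow hbmem
  -- the mesh
  set s := ε / (12 * (β + 1)) with hs'
  have hs : 0 < s := by positivity
  -- continuous clamp
  set c : ℝ → ℝ := fun x => max a (min b x) with hc
  have hcI : ∀ x, c x ∈ Set.Icc a b := fun x =>
    ⟨le_max_left _ _, max_le hab (min_le_left _ _)⟩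
  have hcc : Continuous c := by simp only [hc]; fun_prop
  let F : ℝ → ℝ →ᵇ ℝ := fun g =>
    BoundedContinuousFunction.ofNormedAddCommGroup (fun x => ramp g s (c x))
      ((continuous_ramp g s).comp hcc) 1 fun x => by
        rw [Real.norm_eq_abs, abs_of_nonneg (ramp_nonneg _ _ _)]; exact ramp_le_one _ _ _
  -- mass near the top
  set η := ∫ x, F (b - 2 * s) x ∂μ with hη'
  have hη : 0 < η := by
    have hpos : 0 < μ (Set.Ioi (b - s)) :=
      (Measure.mem_support_iff_forall b).1 hbmem _ (Ioi_mem_nhds (by linarith))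
    have h1 : ∫ x, (Set.Ioi (b - s)).indicator (fun _ => (1:ℝ)) x ∂μ ≤ η := by
      refine integral_mono ((integrable_const _).indicator measurableSet_Ioi)
        ((F (b - 2 * s)).integrable μ) fun x => ?_
      by_cases hx : x ∈ Set.Ioi (b - s)
      · rw [Set.indicator_of_mem hx]
        show 1 ≤ ramp (b - 2 * s) s (c x)
        rw [ramp_eq_one hs]
        simp only [hc]
        have hx' : b - s < x := hx
        exact le_trans (le_min (by linarith) (by linarith)) (le_max_right _ _)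
      · rw [Set.indicator_of_notMem hx]; exact ramp_nonneg _ _ _
    rw [integral_indicator measurableSet_Ioi] at h1
    simp at h1
    exact lt_of_lt_of_le (ENNReal.toReal_pos hpos.ne' (measure_ne_top _ _)) h1
  have hη1 : η ≤ 1 := by
    have := integral_mono ((F (b - 2 * s)).integrable μ) (integrable_const (1:ℝ))
      fun x => ramp_le_one (b - 2 * s) s (c x)
    simpa [hη'] using this
  set δ := min (1/8 : ℝ) (η * ε / (16 * (β + 1) * (b - a + 1))) with hδ'
  have hba : 0 < b - a + 1 := by linarith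
  have hδ : 0 < δ := lt_min (by norm_num) (by positivity)
  -- eventual facts
  set t := ε / (4 * (β + 1)) with ht'
  have ht : 0 < t := by positivity
  have hbd : ∀ L : (N : ℕ) → Fin N → ℝ, Admissible μ L →
      ∀ᶠ N in atTop, ∀ i, |c (L N i) - L N i| ≤ t := by
    intro L hL
    filter_upwards [hL.2.1.eventually (Ici_mem_nhds (show a - t < a by linarith)),
      hL.2.2.eventually (Iic_mem_nhds (show b < b + t by linarith))] with N h1 h2 i
    have h3 : a - t ≤ L N i := le_trans h1 (ciInf_le (Set.finite_range _).bddBelow i)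
    have h4 : L N i ≤ b + t := le_trans (le_ciSup (Set.finite_range _).bddAbove i) h2
    rw [abs_le, hc]
    constructor <;>
    · simp only
      rcases le_total b (L N i) with h | h <;> rcases le_total a (L N i) with h' | h' <;>
        simp [h, h', hab] <;> linarith
  have hgrid : ∀ᶠ N : ℕ in atTop, ∀ j ∈ Finset.range (⌊(b - a) / s⌋₊ + 1),
      ∑ i, F (a + ((j : ℝ) - 2) * s) (Λ N i) ≤
        ∑ i, F (a + ((j : ℝ) - 2) * s) (Λ' N i) + δ * N := by
    rw [Filter.eventually_all_finset]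
    intro j _
    have hd := (hΛ.1 (F (a + ((j : ℝ) - 2) * s))).sub (hΛ'.1 (F (a + ((j : ℝ) - 2) * s)))
    rw [sub_self] at hd
    filter_upwards [hd.eventually (Iic_mem_nhds hδ), eventually_ge_atTop 1] with N h hN
    have hN' : (0:ℝ) < N := Nat.cast_pos.2 (by omega)
    simp only [← mul_sub, one_div, inv_mul_le_iff₀ hN'] at h
    linarith
  have htopev : ∀ᶠ N : ℕ in atTop, η / 2 * N ≤ ∑ i, F (b - 2 * s) (Λ' N i) := by
    filter_upwards [(hΛ'.1 (F (b - 2 * s))).eventually (Ici_mem_nhds (show η / 2 < η by linarith)),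
      eventually_ge_atTop 1] with N h hN
    have hN' : (0:ℝ) < N := Nat.cast_pos.2 (by omega)
    simp only [one_div, le_inv_mul_iff₀ hN'] at h
    linarith
  have hbig : ∀ᶠ N : ℕ in atTop, 2 ≤ δ * N ∧ 4 ≤ η * N ∧ 16 ≤ N :=
    ((tendsto_natCast_atTop_atTop.const_mul_atTop hδ).eventually_ge_atTop 2).and
      (((tendsto_natCast_atTop_atTop.const_mul_atTop hη).eventually_ge_atTop 4).and
        (eventually_ge_atTop 16))
  filter_upwards [hbd Λ hΛ, hbd Λ' hΛ', hgrid, htopev, hbig]
    with N hb1 hb2 hg hto ⟨hN1, hN2, hN3⟩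
  set m := ⌈δ * N⌉₊ with hm'
  set k := ⌊η / 2 * N⌋₊ with hk'
  have hm1 : δ * N ≤ m := Nat.le_ceil _
  have hm2 : (m:ℝ) < δ * N + 1 := Nat.ceil_lt_add_one (by positivity)
  have hk1 : (k:ℝ) ≤ η / 2 * N := Nat.floor_le (by positivity)
  have hk2 : η / 2 * N < k + 1 := Nat.lt_floor_add_one _
  have hk0 : (0:ℝ) < k := by linarith
  have hN16 : (16:ℝ) ≤ N := by exact_mod_cast hN3
  have hmkN : m + k ≤ N := by
    have h1 : δ * N ≤ 1/8 * N := mul_le_mul_of_nonneg_right (min_le_left _ _) (by linarith)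
    have h2 : η / 2 * N ≤ 1/2 * N := mul_le_mul_of_nonneg_right (by linarith) (by linarith)
    exact_mod_cast (show (m:ℝ) + k ≤ N by linarith)
  have hkey := compare_pair hβ (u := fun i => c (Λ N i)) (v := fun i => c (Λ' N i)) hab hs
    (fun i => hcI _) (fun i => hcI _) (Nat.cast_pos.1 hk0) hmkN
    (fun j hj => by
      have h := hg j (Finset.mem_range.2 (Nat.lt_succ_of_le
        (Nat.le_floor ((le_div_iff₀ hs).2 hj))))
      exact h.trans (add_le_add le_rfl hm1))
    (hk1.trans hto)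
  have h1 : meanP β (Λ N) ≤ meanP β (fun i => c (Λ N i)) + β / 2 * t :=
    meanP_mono hβ ht.le fun i => by linarith [(abs_le.1 (hb1 i)).1]
  have h2 : meanP β (fun i => c (Λ' N i)) ≤ meanP β (Λ' N) + β / 2 * t :=
    meanP_mono hβ ht.le fun i => by linarith [(abs_le.1 (hb2 i)).2]
  have hβ1 : β / (β + 1) ≤ 1 := by rw [div_le_one (by linarith)]; linarith
  have hfrac : (m:ℝ) / (m + k) ≤ ε / ((β + 1) * (b - a + 1)) := by
    rw [div_le_iff₀ (by positivity)]
    have hδ2 : δ * (16 * (β + 1) * (b - a + 1)) ≤ η * ε := by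
      rw [← le_div_iff₀ (by positivity)]; exact min_le_right _ _
    rw [div_mul_eq_mul_div, le_div_iff₀ (by positivity)]
    have hm3 : (m:ℝ) * ((β + 1) * (b - a + 1)) ≤ 2 * (δ * N) * ((β + 1) * (b - a + 1)) :=
      mul_le_mul_of_nonneg_right (by linarith) (by positivity)
    have hk3 : ε * (η * N / 4) ≤ ε * k := mul_le_mul_of_nonneg_left (by linarith) hε.le
    nlinarith [mul_le_mul_of_nonneg_right hδ2 (Nat.cast_nonneg N (α := ℝ)),
      mul_nonneg hε.le (Nat.cast_nonneg m (α := ℝ)), mul_nonneg (mul_nonneg hε.le hη.le) (Nat.cast_nonneg N (α := ℝ))]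
  have e1 : β / 2 * t ≤ ε / 8 := arith_mesh_t hβ hε
  have e2 : β / 2 * (6 * s) ≤ ε / 4 := arith_mesh_s hβ hε
  have e3 : β / 2 * ((b - a) * ((m:ℝ) / (m + k))) ≤ ε / 2 :=
    arith_mesh_r hβ hε (by linarith) (by positivity) hfrac
  linarith

theorem meanP_sub_tendsto {β : ℝ} (hβ : 0 ≤ β) {μ : Measure ℝ} [IsProbabilityMeasure μ]
    (hμ : IsCompact μ.support) {Λ Λ' : (N : ℕ) → Fin N → ℝ} (hΛ : Admissible μ Λ)
    (hΛ' : Admissible μ Λ') :
    Tendsto (fun N => meanP β (Λ N) - meanP β (Λ' N)) atTop (𝓝 0) := by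
  rw [Metric.tendsto_nhds]
  intro ε hε
  filter_upwards [meanP_le_eventually hβ hμ hΛ hΛ' (half_pos hε),
    meanP_le_eventually hβ hμ hΛ' hΛ (half_pos hε)] with N h1 h2
  rw [Real.dist_eq, sub_zero, abs_lt]
  constructor <;> linarith

end Vale.Agent.P166
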