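import Vale.Agent.P166.Defs

/-!
# Order and convexity properties of the mean pressure
-/

open MeasureTheory Filter Topology Matrix

namespace Vale.Agent.P166

variable {N : ℕ}

/-- `σᵀ Mᵀ diag(lam) M σ`. -/
noncomputable def eng (lam : Fin N → ℝ) (M : Matrix (Fin N) (Fin N) ℝ) (σ : Fin N → Bool) : ℝ :=
  ∑ l, lam l * (M *ᵥ spin σ) l ^ 2

theorem quad_eq_eng (lam : Fin N → ℝ) (M : Matrix (Fin N) (Fin N) ℝ) (σ : Fin N → Bool) :
    spin σ ⬝ᵥ ((Mᵀ * Matrix.diagonal lam * M) *ᵥ spin σ) = eng lam M σ := by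
  rw [← Matrix.mulVec_mulVec, ← Matrix.mulVec_mulVec, Matrix.dotProduct_mulVec,
    Matrix.vecMul_transpose]
  simp only [eng, dotProduct, Matrix.mulVec_diagonal]
  exact Finset.sum_congr rfl fun l _ => by ring

theorem pressure_eq (β : ℝ) (lam : Fin N → ℝ) (U : ON N) :
    pressure β lam U = (1 / (N : ℝ)) * Real.log ((1 / (2 : ℝ) ^ N) * ∑ σ : Fin N → Bool,
      Real.exp (β / 2 * eng lam (U : Matrix (Fin N) (Fin N) ℝ) σ)) := by
  simp only [pressure, quad_eq_eng]

theorem sum_sq_spin (U : ON N) (σ : Fin N → Bool) :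
    ∑ l, ((U : Matrix (Fin N) (Fin N) ℝ) *ᵥ spin σ) l ^ 2 = N := by
  have hU := (mem_orthogonalGroup_iff' (n := Fin N) (R := ℝ)).1 U.2
  have h := quad_eq_eng (fun _ => (1:ℝ)) (U : Matrix (Fin N) (Fin N) ℝ) σ
  rw [Matrix.diagonal_one, mul_one, hU, Matrix.one_mulVec] at h
  simp only [eng, one_mul] at h
  rw [← h]
  have : ∀ i, spin σ i * spin σ i = 1 := fun i => by unfold spin; split <;> norm_num
  simp [dotProduct, this]

theorem continuous_eng (lam : Fin N → ℝ) (σ : Fin N → Bool) :
    Continuous fun U : ON N => eng lam (U : Matrix (Fin N) (Fin N) ℝ) σ := by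
  simp only [eng, Matrix.mulVec, dotProduct]
  exact continuous_finsetSum _ fun l _ => continuous_const.mul
    ((continuous_finsetSum _ fun j _ =>
      (continuous_subtype_val.matrix_elem l j).mul continuous_const).pow 2)

theorem continuous_pressure (β : ℝ) (lam : Fin N → ℝ) : Continuous (pressure β lam) := by
  have h : pressure β lam = fun U : ON N => (1 / (N : ℝ)) * Real.log ((1 / (2 : ℝ) ^ N) *
      ∑ σ : Fin N → Bool, Real.exp (β / 2 * eng lam (U : Matrix (Fin N) (Fin N) ℝ) σ)) :=
    funext (pressure_eq β lam)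
  rw [h]
  refine continuous_const.mul (Continuous.log ?_ fun U => ?_)
  · exact continuous_const.mul (continuous_finsetSum _ fun σ _ =>
      Real.continuous_exp.comp (continuous_const.mul (continuous_eng lam σ)))
  · positivity

/-- Continuous functions on `O(N)` are integrable. -/
theorem integrable_of_cont {f : ON N → ℝ} (hf : Continuous f) : Integrable f (haarON N) :=
  hf.integrable_of_hasCompactSupport (HasCompactSupport.of_compactSpace _)

/-- The mean pressure. -/
noncomputable def meanP (β : ℝ) (lam : Fin N → ℝ) : ℝ := ∫ U, pressure β lam U ∂(haarON N)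

theorem pressure_mono {β : ℝ} (hβ : 0 ≤ β) {lam lam' : Fin N → ℝ} {t : ℝ} (ht : 0 ≤ t)
    (h : ∀ i, lam i ≤ lam' i + t) (U : ON N) :
    pressure β lam U ≤ pressure β lam' U + β / 2 * t := by
  rcases Nat.eq_zero_or_pos N with rfl | hN
  · simp [pressure]; positivity
  have hN' : (0:ℝ) < N := Nat.cast_pos.2 hN
  have he : ∀ σ, eng lam (U : Matrix (Fin N) (Fin N) ℝ) σ ≤
      eng lam' (U : Matrix (Fin N) (Fin N) ℝ) σ + t * N := by
    intro σ
    rw [← sum_sq_spin U σ, Finset.mul_sum, eng, eng, ← Finset.sum_add_distrib]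
    refine Finset.sum_le_sum fun l _ => ?_
    nlinarith [h l, sq_nonneg (((U : Matrix (Fin N) (Fin N) ℝ) *ᵥ spin σ) l)]
  rw [pressure_eq, pressure_eq]
  have hexp : (1 / (2 : ℝ) ^ N) * ∑ σ : Fin N → Bool,
      Real.exp (β / 2 * eng lam (U : Matrix (Fin N) (Fin N) ℝ) σ) ≤
      Real.exp (β / 2 * (t * N)) * ((1 / (2 : ℝ) ^ N) * ∑ σ : Fin N → Bool,
      Real.exp (β / 2 * eng lam' (U : Matrix (Fin N) (Fin N) ℝ) σ)) := by
    rw [mul_left_comm, Finset.mul_sum (a := Real.exp _)]
    refine mul_le_mul_of_nonneg_left (Finset.sum_le_sum fun σ _ => ?_) (by positivity)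
    rw [← Real.exp_add]
    refine Real.exp_le_exp.2 ?_
    nlinarith [mul_le_mul_of_nonneg_left (he σ) (by linarith : (0:ℝ) ≤ β / 2)]
  have hlog := Real.log_le_log (by positivity) hexp
  rw [Real.log_mul (Real.exp_ne_zero _) (ne_of_gt (by positivity)), Real.log_exp] at hlog
  have h1 := mul_le_mul_of_nonneg_left hlog (by positivity : (0:ℝ) ≤ 1 / (N:ℝ))
  refine h1.trans (le_of_eq ?_)
  field_simp
  ring

theorem meanP_mono {β : ℝ} (hβ : 0 ≤ β) {lam lam' : Fin N → ℝ} {t : ℝ} (ht : 0 ≤ t)
    (h : ∀ i, lam i ≤ lam' i + t) :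
    meanP β lam ≤ meanP β lam' + β / 2 * t := by
  have hc := integrable_of_cont (continuous_pressure β lam')
  calc meanP β lam ≤ ∫ U, (pressure β lam' U + β / 2 * t) ∂(haarON N) :=
        integral_mono (integrable_of_cont (continuous_pressure β lam))
          (hc.add (integrable_const _)) (pressure_mono hβ ht h)
    _ = meanP β lam' + β / 2 * t := by
        rw [integral_add hc (integrable_const _)]; simp [meanP]

/-- The permutation matrix as an element of `O(N)`. -/
noncomputable def permON (e : Equiv.Perm (Fin N)) : ON N :=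
  ⟨(e.toPEquiv.toMatrix : Matrix (Fin N) (Fin N) ℝ), by
    rw [mem_orthogonalGroup_iff, ← PEquiv.toMatrix_symm, ← PEquiv.toMatrix_trans,
      ← Equiv.toPEquiv_symm, ← Equiv.toPEquiv_trans, Equiv.self_trans_symm, Equiv.toPEquiv_refl,
      PEquiv.toMatrix_refl]⟩

theorem eng_perm (lam : Fin N → ℝ) (e : Equiv.Perm (Fin N)) (U : ON N) (σ : Fin N → Bool) :
    eng lam ((permON e * U : ON N) : Matrix (Fin N) (Fin N) ℝ) σ =
      eng (lam ∘ e.symm) (U : Matrix (Fin N) (Fin N) ℝ) σ := by
  unfold eng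
  refine Fintype.sum_equiv e _ _ fun l => ?_
  simp [permON, PEquiv.toMatrix_toPEquiv_mul, Matrix.mulVec, dotProduct]

theorem meanP_perm (β : ℝ) (lam : Fin N → ℝ) (e : Equiv.Perm (Fin N)) :
    meanP β (lam ∘ e) = meanP β lam := by
  have h := integral_mul_left_eq_self (μ := haarON N) (pressure β lam) (permON e.symm)
  rw [meanP, meanP, ← h]
  refine integral_congr_ae (Eventually.of_forall fun U => ?_)
  simp only [pressure_eq, eng_perm, Equiv.symm_symm]

/-- Jensen: the pressure is a convex function of the eigenvalues. -/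
theorem pressure_avg_le {ι : Type*} [Fintype ι] [Nonempty ι] (β : ℝ)
    (L : ι → Fin N → ℝ) (U : ON N) :
    pressure β (fun i => (1 / (Fintype.card ι : ℝ)) * ∑ k, L k i) U ≤
      (1 / (Fintype.card ι : ℝ)) * ∑ k, pressure β (L k) U := by
  have hK : (0:ℝ) < Fintype.card ι := Nat.cast_pos.2 Fintype.card_pos
  set u : Fin N → ℝ := fun i => (1 / (Fintype.card ι : ℝ)) * ∑ k, L k i with hu
  set a : (Fin N → Bool) → ℝ := fun σ =>
    β / 2 * eng u (U : Matrix (Fin N) (Fin N) ℝ) σ with ha
  set b : ι → (Fin N → Bool) → ℝ := fun k σ =>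
    β / 2 * eng (L k) (U : Matrix (Fin N) (Fin N) ℝ) σ with hb
  set Z := ∑ σ, Real.exp (a σ) with hZ
  have hZpos : 0 < Z := by positivity
  set w : (Fin N → Bool) → ℝ := fun σ => Real.exp (a σ) / Z with hw
  have hwsum : ∑ σ, w σ = 1 := by simp only [hw]; rw [← Finset.sum_div, div_self hZpos.ne']
  have hab : ∀ σ, ∑ k, b k σ = (Fintype.card ι : ℝ) * a σ := by
    intro σ
    simp only [hb, ha, hu, eng, Finset.mul_sum]
    rw [Finset.sum_comm]
    refine Finset.sum_congr rfl fun l _ => ?_
    simp only [Finset.mul_sum, Finset.sum_mul]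
    refine Finset.sum_congr rfl fun k _ => ?_
    field_simp
  have hk : ∀ k, (1 / (N:ℝ)) * ∑ σ, w σ * (b k σ - a σ) ≤
      pressure β (L k) U - pressure β u U := by
    intro k
    have hj : Real.exp (∑ σ, w σ * (b k σ - a σ)) ≤ ∑ σ, w σ * Real.exp (b k σ - a σ) := by
      simpa [smul_eq_mul] using convexOn_exp.map_sum_le (t := Finset.univ) (w := w)
        (p := fun σ => b k σ - a σ) (fun σ _ => by positivity) hwsum (fun σ _ => Set.mem_univ _)
    have heq : ∑ σ, w σ * Real.exp (b k σ - a σ) = (∑ σ, Real.exp (b k σ)) / Z := by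
      rw [Finset.sum_div]
      refine Finset.sum_congr rfl fun σ _ => ?_
      simp only [hw]; rw [Real.exp_sub]; field_simp
    rw [heq, ← Real.le_log_iff_exp_le (by positivity), Real.log_div (by positivity) hZpos.ne'] at hj
    have h1 := mul_le_mul_of_nonneg_left hj (by positivity : (0:ℝ) ≤ 1 / (N:ℝ))
    refine h1.trans (le_of_eq ?_)
    rw [pressure_eq, pressure_eq, Real.log_mul (by positivity) (by positivity),
      Real.log_mul (by positivity) (by positivity)]
    simp only [hZ, ha, hb]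
    ring
  have hsum := Finset.sum_le_sum (s := Finset.univ) fun k _ => hk k
  have hzero : ∑ k, (1 / (N:ℝ)) * ∑ σ, w σ * (b k σ - a σ) = 0 := by
    rw [← Finset.mul_sum, Finset.sum_comm]
    simp only [← Finset.mul_sum, Finset.sum_sub_distrib, hab, Finset.sum_const, Finset.card_univ,
      nsmul_eq_mul, sub_self, mul_zero]
  rw [hzero, Finset.sum_sub_distrib, Finset.sum_const, Finset.card_univ, nsmul_eq_mul] at hsum
  rw [div_mul_eq_mul_div, one_mul, le_div_iff₀ hK]
  linarith

theorem meanP_avg_le {ι : Type*} [Fintype ι] [Nonempty ι] (β : ℝ)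
    (L : ι → Fin N → ℝ) :
    meanP β (fun i => (1 / (Fintype.card ι : ℝ)) * ∑ k, L k i) ≤
      (1 / (Fintype.card ι : ℝ)) * ∑ k, meanP β (L k) := by
  have h : ∀ k, Integrable (pressure β (L k)) (haarON N) :=
    fun k => integrable_of_cont (continuous_pressure β (L k))
  simp only [meanP]
  rw [← integral_finsetSum _ fun k _ => h k, ← integral_const_mul]
  exact integral_mono (integrable_of_cont (continuous_pressure β _))
    ((integrable_finsetSum _ fun k _ => h k).const_mul _) (pressure_avg_le β L)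

/-- Averaging over a block can only lower the mean pressure. -/
theorem meanP_block_avg_le (β : ℝ) (lam : Fin N → ℝ) (T : Finset (Fin N)) (hT : T.Nonempty) :
    meanP β (fun i => if i ∈ T then (1 / (T.card : ℝ)) * ∑ j ∈ T, lam j else lam i) ≤
      meanP β lam := by
  classical
  let ι := Equiv.Perm {i // i ∈ T}
  have : Nonempty ι := ⟨(1 : Equiv.Perm {i // i ∈ T})⟩
  have hK : (0:ℝ) < Fintype.card ι := Nat.cast_pos.2 Fintype.card_pos
  have hT0 : (0:ℝ) < T.card := Nat.cast_pos.2 hT.card_pos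
  have key : (fun i => (1 / (Fintype.card ι : ℝ)) * ∑ e : ι,
      (lam ∘ (Equiv.Perm.ofSubtype e : Equiv.Perm (Fin N))) i) =
      fun i => if i ∈ T then (1 / (T.card : ℝ)) * ∑ j ∈ T, lam j else lam i := by
    funext i
    by_cases hi : i ∈ T
    · rw [if_pos hi]
      have h1 : ∀ e : ι, Equiv.Perm.ofSubtype e i = ((e ⟨i, hi⟩ : {i // i ∈ T}) : Fin N) :=
        fun e => Equiv.Perm.ofSubtype_apply_of_mem e hi
      simp only [Function.comp_apply, h1]
      have h2 : ∀ j : {i // i ∈ T}, ∑ e : ι, lam (e j) = ∑ e : ι, lam (e ⟨i, hi⟩) := by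
        intro j
        exact Fintype.sum_equiv (Equiv.mulRight (Equiv.swap j ⟨i, hi⟩)) _ _ fun e => by
          show lam (e j : Fin N) = lam (e (Equiv.swap j ⟨i, hi⟩ ⟨i, hi⟩) : Fin N)
          rw [Equiv.swap_apply_right]
      have h3 : ∑ j : {i // i ∈ T}, ∑ e : ι, lam (e j) =
          (Fintype.card ι : ℝ) * ∑ j ∈ T, lam j := by
        rw [Finset.sum_comm]
        have h4 : ∀ e : ι, ∑ j : {i // i ∈ T}, lam (e j) = ∑ j ∈ T, lam j := by
          intro e
          rw [Equiv.sum_comp e (fun j : {i // i ∈ T} => lam j), Finset.sum_coe_sort]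
        rw [Finset.sum_congr rfl fun e _ => h4 e, Finset.sum_const, Finset.card_univ, nsmul_eq_mul]
      simp only [h2, Finset.sum_const, Finset.card_univ, Fintype.card_coe, nsmul_eq_mul] at h3
      field_simp
      linarith
    · rw [if_neg hi]
      have h1 : ∀ e : ι, Equiv.Perm.ofSubtype e i = i :=
        fun e => Equiv.Perm.ofSubtype_apply_of_not_mem e hi
      simp only [Function.comp_apply, h1, Finset.sum_const, Finset.card_univ, nsmul_eq_mul]
      field_simp
  have h := meanP_avg_le β (fun e : ι => lam ∘ (Equiv.Perm.ofSubtype e : Equiv.Perm (Fin N)))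
  rw [key] at h
  refine h.trans (le_of_eq ?_)
  simp only [meanP_perm, Finset.sum_const, Finset.card_univ, nsmul_eq_mul]
  field_simp

end Vale.Agent.P166
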