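import Vale.Agent.P166.Poincare
import Vale.Agent.P166.Basic

/-!
# Self-averaging of the pressure
-/

open MeasureTheory Filter Topology Matrix MvPolynomial

namespace Vale.Agent.P166

variable {N : ℕ}

/-- The Poincaré inequality for a function and a candidate for its gradient. -/
def Good (F : ON N → ℝ) (G : Fin N × Fin N → ON N → ℝ) : Prop :=
  ((N : ℝ) - 2) * (∫ U, F U * F U ∂(haarON N) - (∫ U, F U ∂(haarON N)) ^ 2) ≤
    4 * ∑ a, ∫ U, G a U * G a U ∂(haarON N)

theorem good_poly (m : Fin N) (f : Poly N) (hN : 2 < N)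
    (hf : ∀ U, fn f (flipON m * U) = fn f U) :
    Good (fun U => fn f U) (fun a U => fn (rd a f) U) :=
  poincare_poly m f hN hf

theorem good_of_tendsto {F : ON N → ℝ} {G : Fin N × Fin N → ON N → ℝ}
    (Fn : ℕ → ON N → ℝ) (Gn : ℕ → Fin N × Fin N → ON N → ℝ)
    (B : ON N → ℝ) (D : Fin N × Fin N → ON N → ℝ) (hB : Continuous B) (hD : ∀ a, Continuous (D a))
    (hFc : ∀ n, Continuous (Fn n)) (hGc : ∀ n a, Continuous (Gn n a))
    (hFb : ∀ n U, |Fn n U| ≤ B U) (hGb : ∀ n a U, |Gn n a U| ≤ D a U)
    (hF : ∀ U, Tendsto (fun n => Fn n U) atTop (𝓝 (F U)))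
    (hG : ∀ a U, Tendsto (fun n => Gn n a U) atTop (𝓝 (G a U)))
    (h : ∀ n, Good (Fn n) (Gn n)) : Good F G := by
  have h1 : Tendsto (fun n => ∫ U, Fn n U ∂(haarON N)) atTop (𝓝 (∫ U, F U ∂(haarON N))) :=
    tendsto_integral_of_dominated_convergence B (fun n => (hFc n).aestronglyMeasurable)
      (integrable_of_cont' hB) (fun n => Eventually.of_forall (hFb n)) (Eventually.of_forall hF)
  have h2 : Tendsto (fun n => ∫ U, Fn n U * Fn n U ∂(haarON N)) atTop
      (𝓝 (∫ U, F U * F U ∂(haarON N))) :=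
    tendsto_integral_of_dominated_convergence (fun U => B U * B U)
      (fun n => ((hFc n).mul (hFc n)).aestronglyMeasurable) (integrable_of_cont' (hB.mul hB))
      (fun n => Eventually.of_forall fun U => by
        rw [Real.norm_eq_abs, abs_mul]
        exact mul_le_mul (hFb n U) (hFb n U) (abs_nonneg _) ((abs_nonneg _).trans (hFb n U)))
      (Eventually.of_forall fun U => (hF U).mul (hF U))
  have h3 : ∀ a, Tendsto (fun n => ∫ U, Gn n a U * Gn n a U ∂(haarON N)) atTop
      (𝓝 (∫ U, G a U * G a U ∂(haarON N))) := fun a =>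
    tendsto_integral_of_dominated_convergence (fun U => D a U * D a U)
      (fun n => ((hGc n a).mul (hGc n a)).aestronglyMeasurable)
      (integrable_of_cont' ((hD a).mul (hD a)))
      (fun n => Eventually.of_forall fun U => by
        rw [Real.norm_eq_abs, abs_mul]
        exact mul_le_mul (hGb n a U) (hGb n a U) (abs_nonneg _) ((abs_nonneg _).trans (hGb n a U)))
      (Eventually.of_forall fun U => (hG a U).mul (hG a U))
  exact le_of_tendsto_of_tendsto ((h2.sub (h1.pow 2)).const_mul _)
    ((tendsto_finsetSum _ fun a _ => h3 a).const_mul _) (Eventually.of_forall h)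

/-- Rotated spin vector, as a polynomial. -/
noncomputable def yP (σ : Fin N → Bool) (l : Fin N) : Poly N := ∑ m, C (spin σ m) * X (l, m)

/-- The energy, as a polynomial. -/
noncomputable def eP (lam : Fin N → ℝ) (σ : Fin N → Bool) : Poly N :=
  ∑ l, C (lam l) * yP σ l ^ 2

theorem fn_yP (σ : Fin N → Bool) (l : Fin N) (U : ON N) :
    fn (yP σ l) U = ((U : Matrix (Fin N) (Fin N) ℝ) *ᵥ spin σ) l := by
  simp [yP, evM, Matrix.mulVec, dotProduct, mul_comm]

theorem fn_eP (lam : Fin N → ℝ) (σ : Fin N → Bool) (U : ON N) :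
    fn (eP lam σ) U = eng lam (U : Matrix (Fin N) (Fin N) ℝ) σ := by
  rw [fn_apply]
  simp only [eP, eng, map_sum, map_mul, map_pow]
  refine Finset.sum_congr rfl fun l _ => ?_
  rw [← fn_apply (yP σ l), fn_yP]
  simp [evM]

theorem rd_yP (σ : Fin N → Bool) (i j l : Fin N) :
    rd (i, j) (yP σ l) = C (kd l i) * yP σ j - C (kd l j) * yP σ i := by
  simp only [yP, map_sum, rd_C_mul, rd_X, Finset.mul_sum, ← Finset.sum_sub_distrib]
  exact Finset.sum_congr rfl fun m _ => by ring

theorem rd_eP (lam : Fin N → ℝ) (σ : Fin N → Bool) (i j : Fin N) :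
    rd (i, j) (eP lam σ) = C (2 * (lam i - lam j)) * (yP σ i * yP σ j) := by
  have h : ∀ l, rd (i, j) (C (lam l) * yP σ l ^ 2) =
      (if l = i then C (2 * lam l) * (yP σ l * yP σ j) else 0) -
        (if l = j then C (2 * lam l) * (yP σ l * yP σ i) else 0) := by
    intro l
    rw [rd_C_mul, sq, Derivation.leibniz, rd_yP, smul_eq_mul]
    simp only [kd]
    split_ifs <;> simp [map_ofNat] <;> ring
  rw [eP, map_sum, Finset.sum_congr rfl fun l _ => h l, Finset.sum_sub_distrib,
    Finset.sum_ite_eq', Finset.sum_ite_eq', if_pos (Finset.mem_univ _), if_pos (Finset.mem_univ _)]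
  simp only [mul_sub, map_sub, map_mul]
  ring

theorem eP_flip (lam : Fin N → ℝ) (σ : Fin N → Bool) (m : Fin N) (U : ON N) :
    fn (eP lam σ) (flipON m * U) = fn (eP lam σ) U := by
  rw [fn_eP, fn_eP]
  unfold eng
  refine Finset.sum_congr rfl fun l _ => ?_
  simp only [Matrix.mulVec, dotProduct, coe_flipON_mul]
  by_cases h : l = m <;> simp [h]

/-- The normalised partition function. -/
noncomputable def part (b : ℝ) (lam : Fin N → ℝ) (U : ON N) : ℝ :=
  (1 / (2:ℝ) ^ N) * ∑ σ : Fin N → Bool, Real.exp (b * eng lam (U : Matrix (Fin N) (Fin N) ℝ) σ)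

/-- Its derivative along the rotation `a`. -/
noncomputable def dpart (b : ℝ) (lam : Fin N → ℝ) (a : Fin N × Fin N) (U : ON N) : ℝ :=
  (1 / (2:ℝ) ^ N) * ∑ σ : Fin N → Bool, Real.exp (b * eng lam (U : Matrix (Fin N) (Fin N) ℝ) σ) *
    (b * fn (rd a (eP lam σ)) U)

/-- Truncated partition function. -/
noncomputable def zP (b : ℝ) (lam : Fin N → ℝ) (M : ℕ) : Poly N :=
  C (1 / (2:ℝ) ^ N) * ∑ σ : Fin N → Bool, ∑ n ∈ Finset.range M,
    C (b ^ n / (n.factorial : ℝ)) * eP lam σ ^ n

theorem abs_exp_partial (x : ℝ) (M : ℕ) :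
    |∑ n ∈ Finset.range M, x ^ n / (n.factorial : ℝ)| ≤ Real.exp |x| := by
  refine le_trans (Finset.abs_sum_le_sum_abs _ _) (le_trans (le_of_eq ?_)
    (Real.sum_le_exp_of_nonneg (abs_nonneg x) M))
  exact Finset.sum_congr rfl fun n _ => by rw [abs_div, abs_pow, Nat.abs_cast]

theorem tendsto_exp_partial (x : ℝ) :
    Tendsto (fun M => ∑ n ∈ Finset.range M, x ^ n / (n.factorial : ℝ)) atTop (𝓝 (Real.exp x)) := by
  have h := (NormedSpace.expSeries_div_hasSum_exp (𝔸 := ℝ) x).tendsto_sum_nat
  rwa [← Real.exp_eq_exp_ℝ] at h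

theorem fn_zP (b : ℝ) (lam : Fin N → ℝ) (M : ℕ) (U : ON N) :
    fn (zP b lam M) U = (1 / (2:ℝ) ^ N) * ∑ σ : Fin N → Bool, ∑ n ∈ Finset.range M,
      (b * eng lam (U : Matrix (Fin N) (Fin N) ℝ) σ) ^ n / (n.factorial : ℝ) := by
  simp only [fn_apply, zP, map_mul, map_sum, map_pow]
  simp only [← fn_apply, fn_eP]
  simp [evM, mul_pow, div_mul_eq_mul_div]

theorem fn_rd_zP (b : ℝ) (lam : Fin N → ℝ) (M : ℕ) (a : Fin N × Fin N) (U : ON N) :
    fn (rd a (zP b lam (M + 1))) U = (1 / (2:ℝ) ^ N) * ∑ σ : Fin N → Bool,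
      (∑ n ∈ Finset.range M, (b * eng lam (U : Matrix (Fin N) (Fin N) ℝ) σ) ^ n /
        (n.factorial : ℝ)) * (b * fn (rd a (eP lam σ)) U) := by
  simp only [zP, rd_C_mul, map_sum, Finset.sum_range_succ', Finset.sum_mul]
  simp only [Derivation.leibniz_pow, pow_zero, fn_apply, map_mul, map_sum, map_add, rd_C_mul]
  simp only [← fn_apply, Derivation.map_one_eq_zero, map_zero, mul_zero, add_zero]
  simp only [fn_apply, nsmul_eq_mul, smul_eq_mul, map_mul, map_pow, map_natCast,
    Nat.add_sub_cancel]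
  simp only [← fn_apply, fn_eP]
  congr 1
  · simp [evM]
  refine Finset.sum_congr rfl fun σ _ => Finset.sum_congr rfl fun n _ => ?_
  simp only [fn_apply, evM, aeval_C, Algebra.algebraMap_self, RingHom.id_apply,
    Nat.factorial_succ, Nat.cast_mul, mul_pow, pow_succ]
  have : (n.factorial : ℝ) ≠ 0 := by positivity
  field_simp

theorem part_pos (b : ℝ) (lam : Fin N → ℝ) (U : ON N) : 0 < part b lam U := by
  unfold part; positivity

theorem continuous_part (b : ℝ) (lam : Fin N → ℝ) : Continuous (part b lam) :=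
  continuous_const.mul (continuous_finsetSum _ fun σ _ =>
    Real.continuous_exp.comp (continuous_const.mul (continuous_eng lam σ)))

theorem continuous_dpart (b : ℝ) (lam : Fin N → ℝ) (a : Fin N × Fin N) :
    Continuous (dpart b lam a) :=
  continuous_const.mul (continuous_finsetSum _ fun σ _ =>
    (Real.continuous_exp.comp (continuous_const.mul (continuous_eng lam σ))).mul
      (continuous_const.mul (fn _).continuous))

/-- Partial sums of the series of `-log (1 - w)`, composed with polynomials. -/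
noncomputable def qP (b : ℝ) (lam : Fin N → ℝ) (κ : ℝ) (K M : ℕ) : Poly N :=
  ∑ n ∈ Finset.range K, C (1 / ((n : ℝ) + 1)) * (1 - C κ * zP b lam M) ^ (n + 1)

theorem fn_qP (b : ℝ) (lam : Fin N → ℝ) (κ : ℝ) (K M : ℕ) (U : ON N) :
    fn (qP b lam κ K M) U =
      ∑ n ∈ Finset.range K, 1 / ((n : ℝ) + 1) * (1 - κ * fn (zP b lam M) U) ^ (n + 1) := by
  simp [qP, evM]

theorem fn_rd_qP (b : ℝ) (lam : Fin N → ℝ) (κ : ℝ) (K M : ℕ) (a : Fin N × Fin N) (U : ON N) :
    fn (rd a (qP b lam κ K M)) U =
      ∑ n ∈ Finset.range K, (1 - κ * fn (zP b lam M) U) ^ n *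
        -(κ * fn (rd a (zP b lam M)) U) := by
  simp only [qP, map_sum, rd_C_mul, Derivation.leibniz_pow, map_sub, Derivation.map_one_eq_zero,
    Nat.add_sub_cancel, nsmul_eq_mul, smul_eq_mul, zero_sub]
  rw [ContinuousMap.sum_apply]
  refine Finset.sum_congr rfl fun n _ => ?_
  simp [evM]
  field_simp

theorem good_series (b : ℝ) (lam : Fin N → ℝ) (κ : ℝ) (K : ℕ) (m : Fin N) (hN : 2 < N) :
    Good (fun U => ∑ n ∈ Finset.range K, 1 / ((n : ℝ) + 1) * (1 - κ * part b lam U) ^ (n + 1))
      (fun a U => ∑ n ∈ Finset.range K, (1 - κ * part b lam U) ^ n *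
        -(κ * dpart b lam a U)) := by
  set Zb : ON N → ℝ := fun U => 1 + |κ| * ((1 / (2:ℝ) ^ N) * ∑ σ : Fin N → Bool,
    Real.exp |b * eng lam (U : Matrix (Fin N) (Fin N) ℝ) σ|) with hZb
  set Db : Fin N × Fin N → ON N → ℝ := fun a U => |κ| * ((1 / (2:ℝ) ^ N) * ∑ σ : Fin N → Bool,
    Real.exp |b * eng lam (U : Matrix (Fin N) (Fin N) ℝ) σ| * |b * fn (rd a (eP lam σ)) U|) with hDb
  have hZc : Continuous Zb := continuous_const.add (continuous_const.mul (continuous_const.mul
    (continuous_finsetSum _ fun σ _ =>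
      Real.continuous_exp.comp (continuous_const.mul (continuous_eng lam σ)).abs)))
  have hDc : ∀ a, Continuous (Db a) := fun a => continuous_const.mul (continuous_const.mul
    (continuous_finsetSum _ fun σ _ =>
      (Real.continuous_exp.comp (continuous_const.mul (continuous_eng lam σ)).abs).mul
        (continuous_const.mul (fn _).continuous).abs))
  have hw : ∀ M U, |1 - κ * fn (zP b lam M) U| ≤ Zb U := by
    intro M U
    refine (abs_sub _ _).trans ?_
    rw [abs_one, abs_mul, fn_zP, abs_mul, abs_of_pos (by positivity : (0:ℝ) < 1 / 2 ^ N)]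
    simp only [hZb]
    gcongr
    exact (Finset.abs_sum_le_sum_abs _ _).trans
      (Finset.sum_le_sum fun σ _ => abs_exp_partial _ _)
  have hd : ∀ M a U, |-(κ * fn (rd a (zP b lam (M + 1))) U)| ≤ Db a U := by
    intro M a U
    rw [abs_neg, abs_mul, fn_rd_zP, abs_mul, abs_of_pos (by positivity : (0:ℝ) < 1 / 2 ^ N)]
    simp only [hDb]
    gcongr
    refine (Finset.abs_sum_le_sum_abs _ _).trans (Finset.sum_le_sum fun σ _ => ?_)
    rw [abs_mul]
    exact mul_le_mul_of_nonneg_right (abs_exp_partial _ _) (abs_nonneg _)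
  have hwT : ∀ U, Tendsto (fun M => fn (zP b lam (M + 1)) U) atTop (𝓝 (part b lam U)) := by
    intro U
    simp only [fn_zP]
    exact (tendsto_finsetSum _ fun σ _ =>
      (tendsto_exp_partial _).comp (tendsto_add_atTop_nat 1)).const_mul _
  have hdT : ∀ a U, Tendsto (fun M => fn (rd a (zP b lam (M + 1))) U) atTop
      (𝓝 (dpart b lam a U)) := by
    intro a U
    simp only [fn_rd_zP]
    exact (tendsto_finsetSum _ fun σ _ => (tendsto_exp_partial _).mul_const _).const_mul _
  refine good_of_tendsto (fun M U => fn (qP b lam κ K (M + 1)) U)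
    (fun M a U => fn (rd a (qP b lam κ K (M + 1))) U)
    (fun U => ∑ n ∈ Finset.range K, 1 / ((n : ℝ) + 1) * Zb U ^ (n + 1))
    (fun a U => ∑ n ∈ Finset.range K, Zb U ^ n * Db a U)
    (continuous_finsetSum _ fun n _ => continuous_const.mul (hZc.pow _))
    (fun a => continuous_finsetSum _ fun n _ => (hZc.pow _).mul (hDc a))
    (fun M => (fn _).continuous) (fun M a => (fn _).continuous) ?_ ?_ ?_ ?_ ?_
  · intro M U
    simp only [fn_qP]
    refine (Finset.abs_sum_le_sum_abs _ _).trans (Finset.sum_le_sum fun n _ => ?_)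
    rw [abs_mul, abs_pow, abs_of_pos (Nat.one_div_pos_of_nat)]
    exact mul_le_mul_of_nonneg_left (pow_le_pow_left₀ (abs_nonneg _) (hw _ _) _)
      Nat.one_div_pos_of_nat.le
  · intro M a U
    simp only [fn_rd_qP]
    refine (Finset.abs_sum_le_sum_abs _ _).trans (Finset.sum_le_sum fun n _ => ?_)
    rw [abs_mul, abs_pow]
    exact mul_le_mul (pow_le_pow_left₀ (abs_nonneg _) (hw _ _) _) (hd _ _ _) (abs_nonneg _)
      (pow_nonneg ((abs_nonneg _).trans (hw M U)) _)
  · intro U
    simp only [fn_qP]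
    exact tendsto_finsetSum _ fun n _ => (((hwT U).const_mul κ).const_sub 1 |>.pow _).const_mul _
  · intro a U
    simp only [fn_rd_qP]
    exact tendsto_finsetSum _ fun n _ =>
      (((hwT U).const_mul κ).const_sub 1 |>.pow _).mul ((hdT a U).const_mul κ).neg
  · intro M
    refine good_poly m _ hN fun U => ?_
    simp only [fn_qP, fn_zP, ← fn_eP, eP_flip]

theorem good_log (b : ℝ) (lam : Fin N → ℝ) (m : Fin N) (hN : 2 < N) :
    Good (fun U => Real.log (part b lam U)) (fun a U => dpart b lam a U / part b lam U) := by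
  obtain ⟨C₀, hC₀⟩ := isCompact_univ.exists_bound_of_continuousOn
    (continuous_part b lam).continuousOn
  set κ : ℝ := 1 / (|C₀| + 1) with hκ
  have hκ0 : 0 < κ := by positivity
  have hle : ∀ U, κ * part b lam U ≤ 1 := by
    intro U
    have h := hC₀ U (Set.mem_univ _)
    rw [Real.norm_eq_abs] at h
    rw [hκ, div_mul_eq_mul_div, one_mul, div_le_one (by positivity)]
    linarith [le_abs_self (part b lam U), le_abs_self C₀]
  set w : ON N → ℝ := fun U => 1 - κ * part b lam U with hw
  have hw0 : ∀ U, 0 ≤ w U := fun U => by simp only [hw]; linarith [hle U]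
  have hw1 : ∀ U, w U < 1 := fun U => by
    simp only [hw]; linarith [mul_pos hκ0 (part_pos b lam U)]
  have hgeo : ∀ U (K : ℕ), ∑ n ∈ Finset.range K, w U ^ n ≤ (1 - w U)⁻¹ := fun U K =>
    sum_le_hasSum _ (fun n _ => pow_nonneg (hw0 U) n)
      (hasSum_geometric_of_lt_one (hw0 U) (hw1 U))
  have hwc : Continuous w := continuous_const.sub (continuous_const.mul (continuous_part b lam))
  have hinv : Continuous fun U => (1 - w U)⁻¹ :=
    (continuous_const.sub hwc).inv₀ fun U => (sub_pos.2 (hw1 U)).ne'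
  have key : Good (fun U => -Real.log (1 - w U))
      (fun a U => (1 - w U)⁻¹ * -(κ * dpart b lam a U)) := by
    refine good_of_tendsto
      (fun K U => ∑ n ∈ Finset.range K, 1 / ((n : ℝ) + 1) * w U ^ (n + 1))
      (fun K a U => ∑ n ∈ Finset.range K, w U ^ n * -(κ * dpart b lam a U))
      (fun U => (1 - w U)⁻¹) (fun a U => (1 - w U)⁻¹ * |κ * dpart b lam a U|)
      hinv (fun a => hinv.mul (continuous_const.mul (continuous_dpart b lam a)).abs)
      (fun K => continuous_finsetSum _ fun n _ => continuous_const.mul (hwc.pow _))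
      (fun K a => continuous_finsetSum _ fun n _ =>
        (hwc.pow _).mul (continuous_const.mul (continuous_dpart b lam a)).neg) ?_ ?_ ?_ ?_
      (fun K => good_series b lam κ K m hN)
    · intro K U
      rw [abs_of_nonneg (Finset.sum_nonneg fun n _ => mul_nonneg Nat.one_div_pos_of_nat.le
        (pow_nonneg (hw0 U) _))]
      refine le_trans (Finset.sum_le_sum fun n _ => ?_) (hgeo U K)
      calc 1 / ((n:ℝ) + 1) * w U ^ (n + 1) ≤ 1 * w U ^ n :=
            mul_le_mul (by rw [div_le_one (by positivity)]; linarith [Nat.cast_nonneg (α := ℝ) n])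
              (pow_le_pow_of_le_one (hw0 U) (hw1 U).le (Nat.le_succ n))
              (pow_nonneg (hw0 U) _) zero_le_one
        _ = w U ^ n := one_mul _
    · intro K a U
      rw [← Finset.sum_mul, abs_mul, abs_neg,
        abs_of_nonneg (Finset.sum_nonneg fun n _ => pow_nonneg (hw0 U) _)]
      exact mul_le_mul_of_nonneg_right (hgeo U K) (abs_nonneg _)
    · intro U
      have h := (Real.hasSum_pow_div_log_of_abs_lt_one
        (abs_lt.2 ⟨by linarith [hw0 U], hw1 U⟩)).tendsto_sum_nat
      simpa [div_eq_inv_mul] using h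
    · intro a U
      simp only [← Finset.sum_mul]
      exact (hasSum_geometric_of_lt_one (hw0 U) (hw1 U)).tendsto_sum_nat.mul_const _
  have h1 : ∀ U, -Real.log (1 - w U) = -Real.log κ - Real.log (part b lam U) := fun U => by
    simp only [hw, sub_sub_cancel]
    rw [Real.log_mul hκ0.ne' (part_pos b lam U).ne']; ring
  have h2 : ∀ a U, (1 - w U)⁻¹ * -(κ * dpart b lam a U) = -(dpart b lam a U / part b lam U) :=
    fun a U => by
      simp only [hw, sub_sub_cancel]
      field_simp
  unfold Good at key ⊢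
  simp only [h1, h2, neg_mul_neg] at key
  refine le_trans (le_of_eq ?_) key
  have hL : Continuous fun U => Real.log (part b lam U) :=
    (continuous_part b lam).log fun U => (part_pos b lam U).ne'
  have hI := integrable_of_cont' hL
  have hI2 := integrable_of_cont' (g := fun U => Real.log (part b lam U) * Real.log (part b lam U))
    (hL.mul hL)
  have e : (fun U => (-Real.log κ - Real.log (part b lam U)) *
      (-Real.log κ - Real.log (part b lam U))) = fun U =>
      (Real.log κ ^ 2 + 2 * Real.log κ * Real.log (part b lam U)) +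
        Real.log (part b lam U) * Real.log (part b lam U) := by funext U; ring
  rw [e, integral_add ((integrable_const _).fun_add (hI.const_mul _)) hI2,
    integral_add (integrable_const _) (hI.const_mul _), integral_const_mul,
    integral_sub (integrable_const _) hI]
  simp only [integral_const, probReal_univ, smul_eq_mul, one_mul]
  ring

theorem pressure_variance (β : ℝ) (lam : Fin N → ℝ) (D : ℝ) (hD : ∀ i j, |lam i - lam j| ≤ D)
    (hN : 2 < N) :
    ((N : ℝ) - 2) * ∫ U, (pressure β lam U - meanP β lam) ^ 2 ∂(haarON N) ≤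
      4 * (β * D) ^ 2 := by
  have hg := good_log (β / 2) lam (⟨0, by omega⟩ : Fin N) hN
  have hN0 : (0:ℝ) < N := Nat.cast_pos.2 (by omega)
  have hD0 : 0 ≤ D := (abs_nonneg _).trans (hD ⟨0, by omega⟩ ⟨0, by omega⟩)
  have hgrad : ∀ U : ON N, ∑ a, (dpart (β / 2) lam a U / part (β / 2) lam U) *
      (dpart (β / 2) lam a U / part (β / 2) lam U) ≤ (β * D) ^ 2 * (N:ℝ) ^ 2 := by
    intro U
    set w : (Fin N → Bool) → ℝ := fun σ =>
      Real.exp (β / 2 * eng lam (U : Matrix (Fin N) (Fin N) ℝ) σ) /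
        ∑ τ : Fin N → Bool, Real.exp (β / 2 * eng lam (U : Matrix (Fin N) (Fin N) ℝ) τ) with hw
    have hws : ∑ σ, w σ = 1 := by
      simp only [hw]; rw [← Finset.sum_div, div_self (by positivity)]
    set y : (Fin N → Bool) → Fin N → ℝ :=
      fun σ => (U : Matrix (Fin N) (Fin N) ℝ) *ᵥ spin σ with hy
    have hrep : ∀ i j, dpart (β / 2) lam (i, j) U / part (β / 2) lam U =
        ∑ σ, w σ * (β * (lam i - lam j) * (y σ i * y σ j)) := by
      intro i j
      simp only [dpart, part, rd_eP, fn_apply, map_mul]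
      simp only [← fn_apply, fn_yP]
      rw [mul_div_mul_left _ _ (by positivity), Finset.sum_div]
      refine Finset.sum_congr rfl fun σ _ => ?_
      simp only [hw, hy, fn_apply, evM, aeval_C, Algebra.algebraMap_self, RingHom.id_apply]
      ring
    have hy2 : ∀ σ, ∑ i, y σ i ^ 2 = (N:ℝ) := sum_sq_spin U
    calc ∑ a, (dpart (β / 2) lam a U / part (β / 2) lam U) *
          (dpart (β / 2) lam a U / part (β / 2) lam U)
        ≤ ∑ a : Fin N × Fin N, ∑ σ, w σ * ((β * D) ^ 2 * (y σ a.1 ^ 2 * y σ a.2 ^ 2)) := by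
          refine Finset.sum_le_sum fun a _ => ?_
          obtain ⟨i, j⟩ := a
          rw [hrep, ← sq]
          refine le_trans (b := ∑ σ, w σ * (β * (lam i - lam j) * (y σ i * y σ j)) ^ 2) ?_ ?_
          · simpa [smul_eq_mul] using (even_two.convexOn_pow (𝕜 := ℝ)).map_sum_le
              (t := Finset.univ) (w := w) (p := fun σ => β * (lam i - lam j) * (y σ i * y σ j))
              (fun σ _ => by positivity) hws (fun σ _ => Set.mem_univ _)
          · refine Finset.sum_le_sum fun σ _ => mul_le_mul_of_nonneg_left ?_ (by positivity)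
            have hsq : (lam i - lam j) ^ 2 ≤ D ^ 2 := by
              rw [← sq_abs]; exact pow_le_pow_left₀ (abs_nonneg _) (hD i j) 2
            calc (β * (lam i - lam j) * (y σ i * y σ j)) ^ 2
                = β ^ 2 * (lam i - lam j) ^ 2 * (y σ i ^ 2 * y σ j ^ 2) := by ring
              _ ≤ β ^ 2 * D ^ 2 * (y σ i ^ 2 * y σ j ^ 2) := by gcongr
              _ = _ := by ring
      _ = ∑ σ, w σ * ((β * D) ^ 2 * (N:ℝ) ^ 2) := by
          rw [Finset.sum_comm]
          refine Finset.sum_congr rfl fun σ _ => ?_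
          rw [← Finset.mul_sum, ← Finset.mul_sum, Fintype.sum_prod_type]
          simp only [← Finset.mul_sum, ← Finset.sum_mul, hy2]
          ring
      _ = _ := by rw [← Finset.sum_mul, hws, one_mul]
  unfold Good at hg
  beta_reduce at hg
  have hcd : ∀ a, Continuous fun U => dpart (β / 2) lam a U / part (β / 2) lam U := fun a =>
    (continuous_dpart _ lam a).div (continuous_part _ lam) fun U => (part_pos _ lam U).ne'
  have hint : ∀ a, Integrable (fun U => dpart (β / 2) lam a U / part (β / 2) lam U *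
      (dpart (β / 2) lam a U / part (β / 2) lam U)) (haarON N) :=
    fun a => integrable_of_cont' ((hcd a).mul (hcd a))
  rw [← integral_finsetSum _ fun a _ => hint a] at hg
  have hbound : ∫ U, ∑ a, (dpart (β / 2) lam a U / part (β / 2) lam U) *
      (dpart (β / 2) lam a U / part (β / 2) lam U) ∂(haarON N) ≤ (β * D) ^ 2 * (N:ℝ) ^ 2 :=
    (integral_mono (integrable_finsetSum _ fun a _ => hint a)
      (integrable_const _) hgrad).trans (le_of_eq (by simp))
  have hP : ∀ U, pressure β lam U = (1 / (N:ℝ)) * Real.log (part (β / 2) lam U) := fun U => by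
    rw [pressure_eq]; rfl
  have hvar : ∫ U, (pressure β lam U - meanP β lam) ^ 2 ∂(haarON N) =
      (1 / (N:ℝ)) ^ 2 * (∫ U, Real.log (part (β / 2) lam U) * Real.log (part (β / 2) lam U) ∂(haarON N)
        - (∫ U, Real.log (part (β / 2) lam U) ∂(haarON N)) ^ 2) := by
    simp only [meanP, hP, integral_const_mul]
    set c := ∫ U, Real.log (part (β / 2) lam U) ∂(haarON N) with hc
    have hL : Continuous fun U => Real.log (part (β / 2) lam U) :=
      (continuous_part _ lam).log fun U => (part_pos _ lam U).ne'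
    have hI := integrable_of_cont' hL
    have hI2 := integrable_of_cont'
      (g := fun U => Real.log (part (β / 2) lam U) * Real.log (part (β / 2) lam U)) (hL.mul hL)
    have e : (fun U => (1 / (N:ℝ) * Real.log (part (β / 2) lam U) - 1 / (N:ℝ) * c) ^ 2) =
        fun U => (1 / (N:ℝ)) ^ 2 * ((Real.log (part (β / 2) lam U) * Real.log (part (β / 2) lam U) -
          2 * c * Real.log (part (β / 2) lam U)) + c ^ 2) := by funext U; ring
    rw [e, integral_const_mul, integral_add (integrable_of_cont' (g := fun U => Real.log (part (β / 2) lam U) *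
      Real.log (part (β / 2) lam U) - 2 * c * Real.log (part (β / 2) lam U))
      ((hL.mul hL).sub (continuous_const.mul hL))) (integrable_const _),
      integral_sub hI2 (hI.const_mul _), integral_const_mul, ← hc]
    simp
    left; ring
  rw [hvar]
  have h6 := mul_le_mul_of_nonneg_left (hg.trans (mul_le_mul_of_nonneg_left hbound (by norm_num)))
    (sq_nonneg (1 / (N:ℝ)))
  have h7 : (1 / (N:ℝ)) ^ 2 * (4 * ((β * D) ^ 2 * (N:ℝ) ^ 2)) = 4 * (β * D) ^ 2 := by
    field_simp
  linarith

end Vale.Agent.P166
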