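import Vale.Agent.P166.Variance

/-!
# Calculus on `O(N)`: smooth Poincaré inequality, rotation integration by parts, compression
-/

open MeasureTheory Filter Topology Matrix MvPolynomial

namespace Vale.Agent.P166

variable {N : ℕ}

instance instRightInvON (N : ℕ) : (haarON N).IsMulRightInvariant where
  map_mul_right_eq_self g := by
    have : IsProbabilityMeasure (Measure.map (· * g) (haarON N)) :=
      Measure.isProbabilityMeasure_map (continuous_mul_const g).aemeasurable
    have h := Measure.isMulInvariant_eq_smul_of_compactSpace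
      (Measure.map (· * g) (haarON N)) (haarON N)
    have h1 := congrArg (fun μ : Measure (ON N) => μ Set.univ) h
    simp only [measure_univ, Measure.smul_apply] at h1
    rw [h]
    have hc : Measure.haarScalarFactor (Measure.map (· * g) (haarON N)) (haarON N) = 1 := by
      simpa [ENNReal.smul_def] using h1.symm
    rw [hc, one_smul]

theorem rotON_add {i j : Fin N} (hij : i ≠ j) (s t : ℝ) :
    rotON hij (s + t) = rotON hij s * rotON hij t := by
  refine Subtype.ext ?_
  rw [coe_rotON_mul]
  ext a b
  simp only [rotON, rotM, Matrix.of_apply, Real.cos_add, Real.sin_add]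
  split_ifs <;> simp_all <;> ring

theorem rotON_zero {i j : Fin N} (hij : i ≠ j) : rotON hij 0 = 1 := by
  refine Subtype.ext (Matrix.ext fun a b => ?_)
  simp only [rotON, rotM, Matrix.of_apply]
  split_ifs <;> simp_all

/-- `G` is the derivative of `F` along the left rotations of pairs of rows. -/
def HasRotDeriv (F : ON N → ℝ) (G : Fin N × Fin N → ON N → ℝ) : Prop :=
  ∀ (i j : Fin N) (hij : i ≠ j) (U : ON N),
    HasDerivAt (fun t => F (rotON hij t * U)) (G (i, j) U) 0

theorem HasRotDeriv.hasDerivAt {F : ON N → ℝ} {G : Fin N × Fin N → ON N → ℝ}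
    (h : HasRotDeriv F G) {i j : Fin N} (hij : i ≠ j) (U : ON N) (t : ℝ) :
    HasDerivAt (fun s => F (rotON hij s * U)) (G (i, j) (rotON hij t * U)) t := by
  have h1 := h i j hij (rotON hij t * U)
  simp only [← mul_assoc, ← rotON_add] at h1
  rw [← sub_self t] at h1
  have h2 := h1.comp_sub_const t t
  simpa using h2

theorem continuous_rot_mul {i j : Fin N} (hij : i ≠ j) (t : ℝ) :
    Continuous fun U : ON N => rotON hij t * U := continuous_const_mul _

/-- Differentiation under the Haar integral along a rotation. -/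
theorem HasRotDeriv.integral {F : ON N → ℝ} {G : Fin N × Fin N → ON N → ℝ}
    (h : HasRotDeriv F G) (hF : Continuous F) (hG : ∀ a, Continuous (G a))
    {k : ON N → ℝ} (hk : Continuous k) {i j : Fin N} (hij : i ≠ j) (U : ON N) :
    HasDerivAt (fun t => ∫ V, k V * F (rotON hij t * (U * V)) ∂(haarON N))
      (∫ V, k V * G (i, j) (U * V) ∂(haarON N)) 0 := by
  obtain ⟨C₀, hC⟩ := isCompact_univ.exists_bound_of_continuousOn (hG (i, j)).continuousOn
  have hc : ∀ t, Continuous fun V : ON N => rotON hij t * (U * V) := fun t =>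
    (continuous_rot_mul hij t).comp (continuous_const_mul U)
  have hd := (hasDerivAt_integral_of_dominated_loc_of_deriv_le
    (F := fun t V => k V * F (rotON hij t * (U * V))) (x₀ := (0:ℝ))
    (F' := fun t V => k V * G (i, j) (rotON hij t * (U * V)))
    (bound := fun V => |k V| * C₀) (μ := haarON N) univ_mem
    (Eventually.of_forall fun t => (hk.mul (hF.comp (hc t))).aestronglyMeasurable)
    (integrable_of_cont' (hk.mul (hF.comp (hc 0))))
    ((hk.mul ((hG (i, j)).comp (hc 0))).aestronglyMeasurable)
    (Eventually.of_forall fun V t _ => by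
      rw [norm_mul, Real.norm_eq_abs]
      exact mul_le_mul_of_nonneg_left (hC _ (Set.mem_univ _)) (abs_nonneg _))
    (integrable_of_cont' (hk.abs.mul continuous_const))
    (Eventually.of_forall fun V t _ => (h.hasDerivAt hij (U * V) t).const_mul (k V))).2
  simpa [rotON_zero] using hd

/-- Rotation integration by parts. -/
theorem integral_rotDeriv {F : ON N → ℝ} {G : Fin N × Fin N → ON N → ℝ}
    (h : HasRotDeriv F G) (hF : Continuous F) (hG : ∀ a, Continuous (G a))
    {i j : Fin N} (hij : i ≠ j) : ∫ U, G (i, j) U ∂(haarON N) = 0 := by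
  have hd := h.integral hF hG (k := fun _ => 1) continuous_const hij 1
  simp only [one_mul, integral_mul_left_eq_self] at hd
  exact hd.unique (hasDerivAt_const (0:ℝ) _)

theorem HasRotDeriv.mul {F F' : ON N → ℝ} {G G' : Fin N × Fin N → ON N → ℝ}
    (h : HasRotDeriv F G) (h' : HasRotDeriv F' G') :
    HasRotDeriv (fun U => F U * F' U) (fun a U => G a U * F' U + F U * G' a U) := by
  intro i j hij U
  simpa [rotON_zero] using! (h i j hij U).mul (h' i j hij U)

/-- Rotation integration by parts for a product. -/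
theorem integral_rotDeriv_mul {F F' : ON N → ℝ} {G G' : Fin N × Fin N → ON N → ℝ}
    (h : HasRotDeriv F G) (h' : HasRotDeriv F' G') (hF : Continuous F) (hF' : Continuous F')
    (hG : ∀ a, Continuous (G a)) (hG' : ∀ a, Continuous (G' a)) {i j : Fin N} (hij : i ≠ j) :
    ∫ U, G (i, j) U * F' U ∂(haarON N) = - ∫ U, F U * G' (i, j) U ∂(haarON N) := by
  have h0 := integral_rotDeriv (h.mul h') (hF.mul hF')
    (fun a => ((hG a).mul hF').add (hF.mul (hG' a))) hij
  rw [integral_add (integrable_of_cont' ((hG (i, j)).fun_mul hF'))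
    (integrable_of_cont' (hF.fun_mul (hG' (i, j))))] at h0
  linarith

/-- The peak at the identity. -/
noncomputable def peak (U : ON N) : ℝ :=
  ((∑ i, (U : Matrix (Fin N) (Fin N) ℝ) i i) + N) / (2 * N)

theorem continuous_peak : Continuous (peak (N := N)) :=
  ((continuous_finsetSum _ fun i _ => continuous_subtype_val.matrix_elem i i).add
    continuous_const).div_const _

theorem diag_mem (U : ON N) (i : Fin N) :
    |(U : Matrix (Fin N) (Fin N) ℝ) i i| ≤ 1 := by
  rw [← sq_le_one_iff_abs_le_one]
  calc (U : Matrix (Fin N) (Fin N) ℝ) i i ^ 2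
      ≤ ∑ l, (U : Matrix (Fin N) (Fin N) ℝ) i l ^ 2 :=
        Finset.single_le_sum (f := fun l => (U : Matrix (Fin N) (Fin N) ℝ) i l ^ 2)
          (fun l _ => sq_nonneg _) (Finset.mem_univ i)
    _ = 1 := row_sq U i

theorem peak_nonneg (U : ON N) : 0 ≤ peak U := by
  refine div_nonneg ?_ (by positivity)
  have : ∑ _i : Fin N, (-1:ℝ) ≤ ∑ i, (U : Matrix (Fin N) (Fin N) ℝ) i i :=
    Finset.sum_le_sum fun i _ => (abs_le.1 (diag_mem U i)).1
  simp at this
  linarith

theorem peak_one (hN : 0 < N) : peak (1 : ON N) = 1 := by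
  have : (0:ℝ) < N := Nat.cast_pos.2 hN
  simp [peak]; field_simp; ring

theorem peak_lt_one (hN : 0 < N) {U : ON N} (hU : U ≠ 1) : peak U < 1 := by
  have hN' : (0:ℝ) < N := Nat.cast_pos.2 hN
  rw [peak, div_lt_one (by positivity)]
  suffices h : ∑ i, (U : Matrix (Fin N) (Fin N) ℝ) i i < N by linarith
  have hle : ∀ i, (U : Matrix (Fin N) (Fin N) ℝ) i i ≤ 1 := fun i => (abs_le.1 (diag_mem U i)).2
  have hone : ∑ _i : Fin N, (1:ℝ) = N := by simp
  rw [← hone]
  refine lt_of_le_of_ne (Finset.sum_le_sum fun i _ => hle i) fun he => hU ?_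
  have hd : ∀ i, (U : Matrix (Fin N) (Fin N) ℝ) i i = 1 := fun i =>
    (Finset.sum_eq_sum_iff_of_le fun i _ => hle i).1 he i (Finset.mem_univ i)
  refine Subtype.ext (Matrix.ext fun i c => ?_)
  rw [show ((1 : ON N) : Matrix (Fin N) (Fin N) ℝ) = 1 from rfl, Matrix.one_apply]
  split_ifs with hic
  · subst hic; exact hd i
  have hs := row_sq U i
  rw [← Finset.add_sum_erase _ _ (Finset.mem_univ i), hd i] at hs
  have h0 : ∑ x ∈ Finset.univ.erase i, (U : Matrix (Fin N) (Fin N) ℝ) i x ^ 2 = 0 := by linarith
  exact pow_eq_zero_iff two_ne_zero |>.1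
    ((Finset.sum_eq_zero_iff_of_nonneg fun x _ => sq_nonneg _).1 h0 c
      (Finset.mem_erase.2 ⟨Ne.symm hic, Finset.mem_univ _⟩))

/-- The smoothing of `F` by the `n`-th power of the peak. -/
noncomputable def smooth (n : ℕ) (F : ON N → ℝ) (U : ON N) : ℝ :=
  ∫ V, ((∫ W, peak W ^ n ∂(haarON N))⁻¹ * peak V ^ n) * F (U * V) ∂(haarON N)

theorem continuous_weight (n : ℕ) :
    Continuous fun V : ON N => (∫ W, peak W ^ n ∂(haarON N))⁻¹ * peak V ^ n :=
  continuous_const.mul (continuous_peak.pow n)

theorem abs_smooth_le (n : ℕ) {F : ON N → ℝ} {C₀ : ℝ}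
    (hC : ∀ U, |F U| ≤ C₀) (U : ON N) : |smooth n F U| ≤ C₀ := by
  have hC0 : 0 ≤ C₀ := (abs_nonneg _).trans (hC U)
  have hI : 0 ≤ ∫ W, peak W ^ n ∂(haarON N) :=
    integral_nonneg fun W => pow_nonneg (peak_nonneg W) n
  refine (norm_integral_le_of_norm_le (G := ℝ)
    ((integrable_of_cont' (continuous_weight n)).mul_const C₀)
    (Eventually.of_forall fun V => ?_) : |smooth n F U| ≤ _).trans ?_
  · rw [Real.norm_eq_abs, abs_mul,
      abs_of_nonneg (mul_nonneg (inv_nonneg.2 hI) (pow_nonneg (peak_nonneg V) n))]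
    exact mul_le_mul_of_nonneg_left (hC _) (mul_nonneg (inv_nonneg.2 hI) (pow_nonneg (peak_nonneg V) n))
  · rw [integral_mul_const, integral_const_mul]
    exact mul_le_of_le_one_left hC0 (inv_mul_le_one)

theorem tendsto_smooth (hN : 0 < N) {F : ON N → ℝ} (hF : Continuous F) (U : ON N) :
    Tendsto (fun n => smooth n F U) atTop (𝓝 (F U)) := by
  have : TopologicalSpace.MetrizableSpace (Matrix (Fin N) (Fin N) ℝ) :=
    inferInstanceAs (TopologicalSpace.MetrizableSpace (Fin N → Fin N → ℝ))
  have : TopologicalSpace.MetrizableSpace (ON N) := IsEmbedding.subtypeVal.metrizableSpace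
  have h := tendsto_setIntegral_pow_smul_of_unique_maximum_of_isCompact_of_continuousOn
    (μ := haarON N) (g := fun V => F (U * V)) (x₀ := (1 : ON N)) isCompact_univ
    continuous_peak.continuousOn (fun y _ hy => by rw [peak_one hN]; exact peak_lt_one hN hy)
    (fun y _ => peak_nonneg y) (by rw [peak_one hN]; exact one_pos)
    (by simp) (hF.comp (continuous_const_mul U)).continuousOn
  simp only [setIntegral_univ, mul_one, smul_eq_mul] at h
  refine h.congr fun n => ?_
  rw [smooth, ← integral_const_mul]
  simp only [mul_assoc]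

theorem exists_poly_smooth (n : ℕ) {F : ON N → ℝ} (hF : Continuous F) :
    ∃ p : Poly N, ∀ U, fn p U = smooth n F U := by
  set Z := (∫ W, peak W ^ n ∂(haarON N))⁻¹
  let Y : Option (Fin N × Fin N) → Poly N := fun v => v.elim 1 X
  let c : Option (Fin N × Fin N) → ON N → ℝ := fun v W =>
    v.elim ((N:ℝ) / (2 * N)) (fun a => (W : Matrix (Fin N) (Fin N) ℝ) a.1 a.2 / (2 * N))
  have hc : ∀ v, Continuous (c v) := fun v => by
    cases v with
    | none => exact continuous_const
    | some a => exact (continuous_subtype_val.matrix_elem a.1 a.2).div_const _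
  refine ⟨∑ f : Fin n → Option (Fin N × Fin N),
    C (∫ W, Z * F W * ∏ k, c (f k) W ∂(haarON N)) * ∏ k, Y (f k), fun U => ?_⟩
  have hkey : ∀ W : ON N, peak (U⁻¹ * W) ^ n =
      ∑ f : Fin n → Option (Fin N × Fin N), (∏ k, c (f k) W) *
        ∏ k, fn (Y (f k)) U := by
    intro W
    have h1 : peak (U⁻¹ * W) = ∑ v, c v W * fn (Y v) U := by
      rw [Fintype.sum_option, Fintype.sum_prod_type]
      simp only [peak, c, Y, Option.elim, fn_apply, map_one, mul_one, evM, aeval_X,
        Submonoid.coe_mul, Matrix.mul_apply]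
      have hinv : ((U⁻¹ : ON N) : Matrix (Fin N) (Fin N) ℝ) =
          (U : Matrix (Fin N) (Fin N) ℝ)ᵀ := rfl
      simp only [hinv, Matrix.transpose_apply]
      rw [add_div, add_comm, Finset.sum_comm, Finset.sum_div]
      simp only [Finset.sum_div]
      congr 1
      exact Finset.sum_congr rfl fun k _ => Finset.sum_congr rfl fun l _ => by ring
    rw [h1, Fintype.sum_pow]
    simp only [Finset.prod_mul_distrib]
  have hsm : smooth n F U = ∫ W, Z * peak (U⁻¹ * W) ^ n * F W ∂(haarON N) := by
    rw [smooth, ← integral_mul_left_eq_self (μ := haarON N)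
      (fun W => Z * peak (U⁻¹ * W) ^ n * F W) U]
    simp only [inv_mul_cancel_left]
    rfl
  rw [hsm]
  simp only [hkey, Finset.mul_sum, Finset.sum_mul]
  rw [integral_finsetSum _ fun f _ => integrable_of_cont'
    (g := fun W => Z * ((∏ k, c (f k) W) * ∏ k, fn (Y (f k)) U) * F W)
    ((continuous_const.mul ((continuous_finsetProd _ fun k _ => hc (f k)).mul
      continuous_const)).mul hF)]
  rw [fn_apply, map_sum]
  refine Finset.sum_congr rfl fun f _ => ?_
  rw [map_mul, map_prod]
  simp only [fn_apply]
  rw [show (evM (U : Matrix (Fin N) (Fin N) ℝ)) (C (∫ W, Z * F W * ∏ k, c (f k) W ∂(haarON N))) =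
    ∫ W, Z * F W * ∏ k, c (f k) W ∂(haarON N) by simp [evM], ← integral_mul_const]
  exact integral_congr_ae (Eventually.of_forall fun W => by ring)

/-- Poincaré inequality for functions differentiable along rotations. -/
theorem poincare_rot (m : Fin N) (hN : 2 < N) {F : ON N → ℝ} {G : Fin N × Fin N → ON N → ℝ}
    (h : HasRotDeriv F G) (hF : Continuous F) (hG : ∀ a, Continuous (G a))
    (hflip : ∀ U, F (flipON m * U) = F U) : Good F G := by
  classical
  set G' : Fin N × Fin N → ON N → ℝ := fun a U => if a.1 = a.2 then 0 else G a U with hG'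
  have hG'c : ∀ a, Continuous (G' a) := fun a => by
    by_cases ha : a.1 = a.2
    · simp only [hG', if_pos ha]; exact continuous_const
    · simp only [hG', if_neg ha]; exact hG a
  choose p hp using fun n => exists_poly_smooth (N := N) n hF
  obtain ⟨B, hB⟩ := isCompact_univ.exists_bound_of_continuousOn hF.continuousOn
  choose D hD using fun a => isCompact_univ.exists_bound_of_continuousOn (hG'c a).continuousOn
  have hrd : ∀ n a U, fn (rd a (p n)) U = smooth n (G' a) U := by
    intro n a U
    obtain ⟨i, j⟩ := a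
    by_cases hij : i = j
    · subst hij; simp [rd_self, smooth, hG']
    have h1 := hasDerivAt_evM_rot hij (U : Matrix (Fin N) (Fin N) ℝ) (p n) 0
    have hid : rotM i j 0 (U : Matrix (Fin N) (Fin N) ℝ) = (U : Matrix (Fin N) (Fin N) ℝ) := by
      rw [← coe_rotON_mul hij, rotON_zero, one_mul]
    rw [hid] at h1
    have h2 := h.integral hF hG (continuous_weight n) hij U
    have heq : (fun t => evM (rotM i j t (U : Matrix (Fin N) (Fin N) ℝ)) (p n)) = fun t =>
        ∫ V, ((∫ W, peak W ^ n ∂(haarON N))⁻¹ * peak V ^ n) * F (rotON hij t * (U * V))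
          ∂(haarON N) := by
      funext t
      rw [← coe_rotON_mul hij, ← fn_apply, hp, smooth]
      simp only [mul_assoc (rotON hij t) U]
    rw [heq] at h1
    rw [fn_apply, h1.unique h2]
    simp [smooth, hG', hij]
  have hN0 : 0 < N := by omega
  have hg : Good F G' := by
    refine good_of_tendsto (fun n U => fn (p n) U) (fun n a U => fn (rd a (p n)) U)
      (fun _ => B) (fun a _ => D a) continuous_const (fun _ => continuous_const)
      (fun n => (fn _).continuous) (fun n a => (fn _).continuous) ?_ ?_ ?_ ?_ ?_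
    · intro n U
      simp only [hp]
      exact abs_smooth_le n (fun V => hB V (Set.mem_univ _)) U
    · intro n a U
      simp only [hrd]
      exact abs_smooth_le n (fun V => hD a V (Set.mem_univ _)) U
    · intro U; simp only [hp]; exact tendsto_smooth hN0 hF U
    · intro a U; simp only [hrd]; exact tendsto_smooth hN0 (hG'c a) U
    · intro n
      refine good_poly m (p n) hN fun U => ?_
      simp only [hp, smooth, mul_assoc (flipON m) U, hflip]
  refine le_trans hg (mul_le_mul_of_nonneg_left (Finset.sum_le_sum fun a _ =>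
    integral_mono (integrable_of_cont' ((hG'c a).mul (hG'c a)))
      (integrable_of_cont' ((hG a).mul (hG a))) fun U => ?_) (by norm_num))
  simp only [hG']
  split_ifs
  · simpa using mul_self_nonneg (G a U)
  · exact le_rfl

/-- Compression: Haar measure absorbs a random orthogonal factor on the right. -/
theorem integral_mul_random {α : Type*} [MeasurableSpace α] (ν : Measure α)
    [IsProbabilityMeasure ν] (e : α → ON N) {F : ON N → ℝ} :
    ∫ a, ∫ U, F (U * e a) ∂(haarON N) ∂ν = ∫ U, F U ∂(haarON N) := by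
  simp [integral_mul_right_eq_self]

end Vale.Agent.P166
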