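import Vale.Agent.P166.Defs

/-!
# Left-invariant calculus on polynomial functions on `O(N)`
-/

open MeasureTheory Filter Topology Matrix MvPolynomial

namespace Vale.Agent.P166

variable {N : ℕ}

/-- Polynomials in the entries of an `N × N` matrix. -/
abbrev Poly (N : ℕ) := MvPolynomial (Fin N × Fin N) ℝ

/-- Evaluation of a polynomial at a matrix. -/
noncomputable def evM (M : Matrix (Fin N) (Fin N) ℝ) : Poly N →ₐ[ℝ] ℝ :=
  aeval fun p => M p.1 p.2

theorem continuous_evM (p : Poly N) :
    Continuous fun U : ON N => evM (U : Matrix (Fin N) (Fin N) ℝ) p := by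
  induction p using MvPolynomial.induction_on with
  | C a => simp only [evM, aeval_C]; exact continuous_const
  | add p q hp hq => simp only [map_add]; exact hp.add hq
  | mul_X p v hp =>
    simp only [map_mul]
    refine hp.mul ?_
    simp only [evM, aeval_X]
    exact continuous_subtype_val.matrix_elem v.1 v.2

/-- Real Kronecker delta. -/
noncomputable def kd (x y : Fin N) : ℝ := if x = y then 1 else 0

theorem kd_comm (x y : Fin N) : kd x y = kd y x := by
  simp [kd, eq_comm]

theorem kd_self (x : Fin N) : kd x x = 1 := by simp [kd]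

theorem kd_ne {x y : Fin N} (h : x ≠ y) : kd x y = 0 := by simp [kd, h]

/-- The vector field of the rotation of rows `i` and `j`. -/
noncomputable def rd (a : Fin N × Fin N) : Derivation ℝ (Poly N) (Poly N) :=
  mkDerivation ℝ fun p => C (kd p.1 a.1) * X (a.2, p.2) - C (kd p.1 a.2) * X (a.1, p.2)

theorem rd_X (i j k l : Fin N) :
    rd (i, j) (X (k, l)) = C (kd k i) * X (j, l) - C (kd k j) * X (i, l) := by
  simp [rd]

theorem rd_self (i : Fin N) : rd (i, i) = 0 := by
  ext v; obtain ⟨k, l⟩ := v
  simp [rd_X]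

theorem rd_swap (i j : Fin N) : rd (j, i) = - rd (i, j) := by
  ext v; obtain ⟨k, l⟩ := v
  simp [rd_X]

theorem rd_C_mul (a : Fin N × Fin N) (r : ℝ) (p : Poly N) :
    rd a (C r * p) = C r * rd a p := by
  simp [Derivation.leibniz, smul_eq_mul]

theorem rd_comm (i j k l : Fin N) (p : Poly N) :
    rd (i, j) (rd (k, l) p) - rd (k, l) (rd (i, j) p) =
      - kd j k • rd (i, l) p + kd i k • rd (j, l) p + kd j l • rd (i, k) p
        - kd i l • rd (j, k) p := by
  have h : ⁅rd (i, j), rd (k, l)⁆ =
      - kd j k • rd (i, l) + kd i k • rd (j, l) + kd j l • rd (i, k) - kd i l • rd (j, k) := by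
    apply MvPolynomial.derivation_ext
    rintro ⟨x, y⟩
    simp only [Derivation.commutator_apply, rd_X, map_sub, rd_C_mul, Derivation.add_apply,
      Derivation.sub_apply, Derivation.smul_apply, smul_eq_C_mul, neg_smul]
    rw [kd_comm k i, kd_comm l i, kd_comm k j, kd_comm l j]
    ring
  simpa [Derivation.commutator_apply] using congrArg (fun D : Derivation ℝ (Poly N) (Poly N) => D p) h

/-- The Laplacian. -/
noncomputable def lap (N : ℕ) : Poly N →ₗ[ℝ] Poly N :=
  ∑ a : Fin N × Fin N, (rd a).toLinearMap ∘ₗ (rd a).toLinearMap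

theorem lap_apply (p : Poly N) : lap N p = ∑ a, rd a (rd a p) := by
  simp [lap, LinearMap.sum_apply]

theorem rd_lap (a : Fin N × Fin N) (p : Poly N) : rd a (lap N p) = lap N (rd a p) := by
  obtain ⟨i, j⟩ := a
  rw [← sub_eq_zero, lap_apply, lap_apply, map_sum, ← Finset.sum_sub_distrib]
  have h : ∀ b : Fin N × Fin N, rd (i, j) (rd b (rd b p)) - rd b (rd b (rd (i, j) p)) =
      (rd (i, j) (rd b (rd b p)) - rd b (rd (i, j) (rd b p))) +
        rd b (rd (i, j) (rd b p) - rd b (rd (i, j) p)) := by
    intro b; rw [map_sub]; abel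
  rw [Finset.sum_congr rfl fun b _ => h b, Fintype.sum_prod_type]
  simp only [rd_comm, map_add, map_sub, map_neg, Derivation.map_smul, neg_smul,
    Finset.sum_add_distrib, Finset.sum_sub_distrib, Finset.sum_neg_distrib]
  simp only [kd, ite_smul, one_smul, zero_smul]
  simp only [← Finset.sum_neg_distrib, Finset.sum_ite_irrel, Finset.sum_const_zero,
    Finset.sum_ite_eq, Finset.mem_univ, if_true]
  simp only [rd_swap j, rd_swap i, Derivation.neg_apply, map_neg, Finset.sum_neg_distrib]
  abel

/-- Polynomials spanned by products of at most `d` entries. -/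
noncomputable def lin (N : ℕ) : Submodule ℝ (Poly N) :=
  Submodule.span ℝ (insert 1 (Set.range (X : Fin N × Fin N → Poly N)))

theorem one_le_lin : (1 : Submodule ℝ (Poly N)) ≤ lin N := by
  rw [Submodule.one_le]; exact Submodule.subset_span (Set.mem_insert _ _)

theorem rd_mem_lin (a : Fin N × Fin N) {p : Poly N} (hp : p ∈ lin N) : rd a p ∈ lin N := by
  induction hp using Submodule.span_induction with
  | mem x hx =>
    rcases hx with rfl | ⟨⟨k, l⟩, rfl⟩
    · simp
    · obtain ⟨i, j⟩ := a
      rw [rd_X, ← smul_eq_C_mul, ← smul_eq_C_mul]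
      exact Submodule.sub_mem _
        (Submodule.smul_mem _ _ (Submodule.subset_span (Or.inr ⟨_, rfl⟩)))
        (Submodule.smul_mem _ _ (Submodule.subset_span (Or.inr ⟨_, rfl⟩)))
  | zero => simp
  | add x y _ _ hx hy => rw [map_add]; exact add_mem hx hy
  | smul r x _ hx => rw [Derivation.map_smul]; exact Submodule.smul_mem _ _ hx

theorem rd_mem_pow (a : Fin N × Fin N) (d : ℕ) :
    ∀ {p : Poly N}, p ∈ lin N ^ d → rd a p ∈ lin N ^ d := by
  induction d with
  | zero =>
    intro p hp
    rw [pow_zero, Submodule.one_eq_range] at hp ⊢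
    obtain ⟨r, rfl⟩ := hp
    exact ⟨0, by simp⟩
  | succ d ih =>
    intro p hp
    rw [pow_succ] at hp ⊢
    induction hp using Submodule.mul_induction_on' with
    | mem_mul_mem x hx y hy =>
      rw [Derivation.leibniz, smul_eq_mul, smul_eq_mul, mul_comm y]
      exact add_mem (Submodule.mul_mem_mul hx (rd_mem_lin a hy))
        (Submodule.mul_mem_mul (ih hx) hy)
    | add x _ y _ hx hy => rw [map_add]; exact add_mem hx hy

theorem lap_mem_pow (d : ℕ) {p : Poly N} (hp : p ∈ lin N ^ d) : lap N p ∈ lin N ^ d := by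
  rw [lap_apply]
  exact Submodule.sum_mem _ fun a _ => rd_mem_pow a d (rd_mem_pow a d hp)

theorem exists_mem_pow (p : Poly N) : ∃ d, p ∈ lin N ^ d := by
  have hmono : Monotone fun d => lin N ^ d := fun d e h => pow_le_pow_right' one_le_lin h
  induction p using MvPolynomial.induction_on with
  | C a => exact ⟨0, by rw [pow_zero, Submodule.one_eq_range]; exact ⟨a, rfl⟩⟩
  | add p q hp hq =>
    obtain ⟨d, hd⟩ := hp; obtain ⟨e, he⟩ := hq
    exact ⟨max d e, add_mem (hmono (le_max_left d e) hd) (hmono (le_max_right d e) he)⟩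
  | mul_X p v hp =>
    obtain ⟨d, hd⟩ := hp
    exact ⟨d + 1, by
      rw [pow_succ]
      exact Submodule.mul_mem_mul hd (Submodule.subset_span (Or.inr ⟨v, rfl⟩))⟩

theorem finite_pow (d : ℕ) : Module.Finite ℝ (lin N ^ d : Submodule ℝ (Poly N)) :=
  Module.Finite.iff_fg.2 ((Submodule.fg_span ((Set.finite_range _).insert _)).pow d)

/-- Rotation of rows `i` and `j`. -/
noncomputable def rotM (i j : Fin N) (θ : ℝ) (M : Matrix (Fin N) (Fin N) ℝ) :
    Matrix (Fin N) (Fin N) ℝ :=
  Matrix.of fun k l => if k = i then Real.cos θ * M i l + Real.sin θ * M j l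
    else if k = j then -(Real.sin θ * M i l) + Real.cos θ * M j l else M k l

theorem rotM_gram {i j : Fin N} (hij : i ≠ j) (θ : ℝ) (M : Matrix (Fin N) (Fin N) ℝ) :
    (rotM i j θ M)ᵀ * rotM i j θ M = Mᵀ * M := by
  ext l m
  simp only [Matrix.mul_apply, Matrix.transpose_apply]
  rw [← sub_eq_zero, ← Finset.sum_sub_distrib,
    Fintype.sum_eq_add i j hij (fun k hk => by simp [rotM, hk.1, hk.2])]
  simp only [rotM, Matrix.of_apply, if_true, hij.symm, if_false]
  linear_combination (M i l * M i m + M j l * M j m) * Real.cos_sq_add_sin_sq θ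

theorem rotM_mul {i j : Fin N} (θ : ℝ) (M : Matrix (Fin N) (Fin N) ℝ) :
    rotM i j θ 1 * M = rotM i j θ M := by
  ext k l
  simp only [Matrix.mul_apply, rotM, Matrix.of_apply]
  split_ifs with h1 h2 <;>
    simp [Matrix.one_apply, add_mul, Finset.sum_add_distrib]

theorem hasDerivAt_evM_rot {i j : Fin N} (hij : i ≠ j) (M : Matrix (Fin N) (Fin N) ℝ)
    (p : Poly N) (θ : ℝ) :
    HasDerivAt (fun t => evM (rotM i j t M) p) (evM (rotM i j θ M) (rd (i, j) p)) θ := by
  induction p using MvPolynomial.induction_on with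
  | C a => simpa [evM] using hasDerivAt_const θ a
  | add p q hp hq => simpa using! hp.add hq
  | mul_X p v hp =>
    obtain ⟨k, l⟩ := v
    have hX : HasDerivAt (fun t => rotM i j t M k l)
        (evM (rotM i j θ M) (rd (i, j) (X (k, l)))) θ := by
      simp only [rd_X, evM, map_sub, map_mul, aeval_C, aeval_X, rotM, Matrix.of_apply]
      by_cases h1 : k = i
      · subst h1
        simpa [kd, hij, hij.symm] using! ((Real.hasDerivAt_cos θ).mul_const (M k l)).add
          ((Real.hasDerivAt_sin θ).mul_const (M j l))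
      · by_cases h2 : k = j
        · subst h2
          simpa [kd, h1, sub_eq_add_neg, add_comm] using!
            ((Real.hasDerivAt_sin θ).mul_const (M i l)).neg.add
              ((Real.hasDerivAt_cos θ).mul_const (M k l))
        · simpa [kd, h1, h2] using hasDerivAt_const θ (M k l)
    have hfun : (fun t => evM (rotM i j t M) (p * X (k, l))) =
        fun t => evM (rotM i j t M) p * rotM i j t M k l := by
      funext t; simp [evM]
    rw [hfun]
    refine (hp.mul hX).congr_deriv ?_
    simp only [Derivation.leibniz, smul_eq_mul, map_add, map_mul, evM, aeval_X]; ring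

/-- The rotation as an element of `O(N)`. -/
noncomputable def rotON {i j : Fin N} (hij : i ≠ j) (θ : ℝ) : ON N :=
  ⟨rotM i j θ 1, by rw [mem_orthogonalGroup_iff', rotM_gram hij]; simp⟩

theorem coe_rotON_mul {i j : Fin N} (hij : i ≠ j) (θ : ℝ) (U : ON N) :
    ((rotON hij θ * U : ON N) : Matrix (Fin N) (Fin N) ℝ) =
      rotM i j θ (U : Matrix (Fin N) (Fin N) ℝ) := rotM_mul θ _

/-- Invariance under all the rotations of two rows. -/
def RotInv (k : ON N → ℝ) : Prop :=
  ∀ (i j : Fin N) (hij : i ≠ j) (θ : ℝ) (U : ON N), k (rotON hij θ * U) = k U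

theorem integral_rd_weight {k : ON N → ℝ} (hk : Continuous k) (hinv : RotInv k)
    (a : Fin N × Fin N) (p : Poly N) :
    ∫ U : ON N, k U * evM (U : Matrix (Fin N) (Fin N) ℝ) (rd a p) ∂(haarON N) = 0 := by
  obtain ⟨i, j⟩ := a
  by_cases hij : i = j
  · subst hij; simp [rd_self]
  set F : ℝ → ON N → ℝ := fun θ U => k U * evM (rotM i j θ (U : Matrix (Fin N) (Fin N) ℝ)) p
  have hFc : ∀ θ q, Continuous fun U : ON N =>
      evM (rotM i j θ (U : Matrix (Fin N) (Fin N) ℝ)) q := by
    intro θ q
    simp only [← coe_rotON_mul hij]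
    exact (continuous_evM q).comp (continuous_const_mul _)
  have hconst : ∀ θ, ∫ U, F θ U ∂(haarON N) =
      ∫ U : ON N, k U * evM (U : Matrix (Fin N) (Fin N) ℝ) p ∂(haarON N) := by
    intro θ
    rw [← integral_mul_left_eq_self (μ := haarON N)
      (fun U : ON N => k U * evM (U : Matrix (Fin N) (Fin N) ℝ) p) (rotON hij θ)]
    simp only [F, hinv i j hij, coe_rotON_mul]
  obtain ⟨C₀, hC⟩ := isCompact_univ.exists_bound_of_continuousOn
    (continuous_evM (rd (i, j) p)).continuousOn
  have hd := (hasDerivAt_integral_of_dominated_loc_of_deriv_le (F := F) (x₀ := (0:ℝ))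
    (F' := fun θ U => k U * evM (rotM i j θ (U : Matrix (Fin N) (Fin N) ℝ)) (rd (i, j) p))
    (bound := fun U => |k U| * C₀) (μ := haarON N) univ_mem
    (Eventually.of_forall fun θ => (hk.mul (hFc θ p)).aestronglyMeasurable)
    ((hk.mul (hFc 0 p)).integrable_of_hasCompactSupport (HasCompactSupport.of_compactSpace _))
    ((hk.mul (hFc 0 _)).aestronglyMeasurable)
    (Eventually.of_forall fun U θ _ => by
      rw [norm_mul, Real.norm_eq_abs]
      refine mul_le_mul_of_nonneg_left ?_ (abs_nonneg _)
      rw [← coe_rotON_mul hij]; exact hC _ (Set.mem_univ _))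
    ((hk.abs.mul continuous_const).integrable_of_hasCompactSupport
      (HasCompactSupport.of_compactSpace _))
    (Eventually.of_forall fun U θ _ =>
      (hasDerivAt_evM_rot hij _ p θ).const_mul (k U))).2
  simp only [hconst] at hd
  have h0 := hd.unique (hasDerivAt_const (0:ℝ) _)
  refine Eq.trans (integral_congr_ae (Eventually.of_forall fun U => ?_)) h0
  have hid : rotM i j 0 (U : Matrix (Fin N) (Fin N) ℝ) = (U : Matrix (Fin N) (Fin N) ℝ) := by
    ext a b; simp only [rotM, Matrix.of_apply]; split_ifs <;> simp_all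
  simp only [hid]

end Vale.Agent.P166
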