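import Vale.Agent.P166.Deriv

/-!
# A Poincaré inequality on `O(N)` for polynomials invariant under one reflection
-/

open MeasureTheory Filter Topology Matrix MvPolynomial

namespace Vale.Agent.P166

variable {N : ℕ}

/-- The reflection of coordinate `i`. -/
noncomputable def flipON (i : Fin N) : ON N :=
  ⟨Matrix.diagonal fun k => if k = i then -1 else 1, by
    rw [mem_orthogonalGroup_iff, Matrix.diagonal_transpose, Matrix.diagonal_mul_diagonal]
    rw [← Matrix.diagonal_one]; congr 1; funext k; split_ifs <;> norm_num⟩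

theorem coe_flipON_mul (i : Fin N) (U : ON N) (k l : Fin N) :
    ((flipON i * U : ON N) : Matrix (Fin N) (Fin N) ℝ) k l =
      if k = i then -(U : Matrix (Fin N) (Fin N) ℝ) k l else (U : Matrix (Fin N) (Fin N) ℝ) k l := by
  simp only [flipON, Submonoid.coe_mul, Matrix.diagonal_mul]
  split_ifs <;> ring

theorem flipON_flipON (i : Fin N) (U : ON N) : flipON i * (flipON i * U) = U := by
  refine Subtype.ext (Matrix.ext fun k l => ?_)
  rw [coe_flipON_mul, coe_flipON_mul]
  split_ifs <;> simp

theorem RotInv.flip {k : ON N → ℝ} (hk : RotInv k) (m : Fin N) :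
    RotInv fun U => k (flipON m * U) := by
  intro i j hij θ U
  have h : flipON m * (rotON hij θ * U) =
      rotON hij (if m = i ∨ m = j then -θ else θ) * (flipON m * U) := by
    refine Subtype.ext (Matrix.ext fun a b => ?_)
    rw [coe_flipON_mul, coe_rotON_mul, coe_rotON_mul]
    simp only [rotM, Matrix.of_apply, coe_flipON_mul]
    by_cases h1 : m = i
    · subst h1
      by_cases ha : a = m
      · subst ha; simp [hij.symm]; ring
      · by_cases hb : a = j <;> simp [ha, hb, hij.symm]
    · by_cases h2 : m = j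
      · subst h2
        by_cases ha : a = i
        · subst ha; simp [hij]
        · by_cases hb : a = m
          · subst hb; simp [ha, hij]; ring
          · simp [ha, hb]
      · by_cases ha : a = i
        · subst ha; simp [Ne.symm h1, h1, h2, Ne.symm h2]
        · by_cases hb : a = j
          · subst hb; simp [h1, Ne.symm h2, h2, Ne.symm h1, ha]
          · simp [ha, hb]
  show k (flipON m * (rotON hij θ * U)) = k (flipON m * U)
  rw [h, hk i j hij]

/-- `U` and `V` are not separated by rotation-invariant functions. -/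
def Linked (U V : ON N) : Prop :=
  ∀ k : ON N → ℝ, RotInv k → k U = k V

theorem Linked.rot {i j : Fin N} (hij : i ≠ j) (θ : ℝ) (U : ON N) :
    Linked U (rotON hij θ * U) := fun k hk => (hk i j hij θ U).symm

theorem Linked.trans' {U V W : ON N} (h : Linked U V) (h' : Linked V W) : Linked U W :=
  fun k hk => (h k hk).trans (h' k hk)

/-- The columns with index in `S` are standard basis vectors. -/
def Fixed (S : Finset (Fin N)) (U : ON N) : Prop :=
  ∀ c ∈ S, ∀ r, (U : Matrix (Fin N) (Fin N) ℝ) r c = if r = c then 1 else 0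

theorem row_sq (U : ON N) (i : Fin N) :
    ∑ l, (U : Matrix (Fin N) (Fin N) ℝ) i l ^ 2 = 1 := by
  have h := congrFun (congrFun ((mem_orthogonalGroup_iff (n := Fin N) (R := ℝ)).1 U.2) i) i
  simpa [Matrix.mul_apply, sq] using h

theorem col_sq (U : ON N) (c : Fin N) :
    ∑ l, (U : Matrix (Fin N) (Fin N) ℝ) l c ^ 2 = 1 := by
  have h := congrFun (congrFun ((mem_orthogonalGroup_iff' (n := Fin N) (R := ℝ)).1 U.2) c) c
  simpa [Matrix.mul_apply, sq] using h

theorem Fixed.row {S : Finset (Fin N)} {U : ON N} (h : Fixed S U) {i c : Fin N} (hi : i ∈ S)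
    (hic : c ≠ i) : (U : Matrix (Fin N) (Fin N) ℝ) i c = 0 := by
  have hs := row_sq U i
  rw [← Finset.add_sum_erase _ _ (Finset.mem_univ i), h i hi i, if_pos rfl] at hs
  have h0 : ∑ x ∈ Finset.univ.erase i, (U : Matrix (Fin N) (Fin N) ℝ) i x ^ 2 = 0 := by linarith
  exact pow_eq_zero_iff two_ne_zero |>.1
    ((Finset.sum_eq_zero_iff_of_nonneg fun x _ => sq_nonneg _).1 h0 c
      (Finset.mem_erase.2 ⟨hic, Finset.mem_univ _⟩))

theorem exists_angle (x y : ℝ) : ∃ θ : ℝ, -(Real.sin θ * x) + Real.cos θ * y = 0 := by
  by_cases hx : x = 0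
  · exact ⟨Real.pi / 2, by simp [hx]⟩
  · refine ⟨Real.arctan (y / x), ?_⟩
    rw [Real.sin_arctan, Real.cos_arctan]
    have : 0 < Real.sqrt (1 + (y / x) ^ 2) := by positivity
    field_simp
    ring

theorem rot_fixed {S : Finset (Fin N)} {U : ON N} (h : Fixed S U) {i j : Fin N} (hij : i ≠ j)
    (hi : i ∉ S) (hj : j ∉ S) (θ : ℝ) : Fixed S (rotON hij θ * U) := by
  intro c hc r
  rw [coe_rotON_mul]
  simp only [rotM, Matrix.of_apply]
  have hci : i ≠ c := fun e => hi (e ▸ hc)
  have hcj : j ≠ c := fun e => hj (e ▸ hc)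
  rw [h c hc i, h c hc j, h c hc r, if_neg hci, if_neg hcj]
  split_ifs <;> simp_all

theorem clear_col {S : Finset (Fin N)} {U : ON N} (h : Fixed S U) {j : Fin N} (hj : j ∉ S)
    (T : Finset (Fin N)) (hT : j ∉ T) :
    ∃ V, Linked U V ∧ Fixed S V ∧ ∀ r ∈ T, (V : Matrix (Fin N) (Fin N) ℝ) r j = 0 := by
  induction T using Finset.induction_on with
  | empty => exact ⟨U, fun _ _ => rfl, h, by simp⟩
  | insert k T hk ih =>
    obtain ⟨V, hUV, hV, hV0⟩ := ih fun e => hT (Finset.mem_insert_of_mem e)
    have hjk : j ≠ k := fun e => hT (e ▸ Finset.mem_insert_self k T)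
    by_cases hkS : k ∈ S
    · refine ⟨V, hUV, hV, fun r hr => ?_⟩
      rcases Finset.mem_insert.1 hr with rfl | hr
      · exact hV.row hkS hjk
      · exact hV0 r hr
    · obtain ⟨θ, hθ⟩ := exists_angle ((V : Matrix (Fin N) (Fin N) ℝ) j j)
        ((V : Matrix (Fin N) (Fin N) ℝ) k j)
      refine ⟨rotON hjk θ * V, hUV.trans' (Linked.rot hjk θ V), rot_fixed hV hjk hj hkS θ,
        fun r hr => ?_⟩
      rw [coe_rotON_mul]
      simp only [rotM, Matrix.of_apply]
      rcases Finset.mem_insert.1 hr with rfl | hr
      · simp [hjk.symm, hθ]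
      · have : r ≠ j := fun e => hT (Finset.mem_insert_of_mem (e ▸ hr))
        have : r ≠ k := fun e => hk (e ▸ hr)
        simp_all

theorem Fixed.eq_one {U : ON N} (h : Fixed Finset.univ U) : U = 1 := by
  refine Subtype.ext (Matrix.ext fun r c => ?_)
  simp [h c (Finset.mem_univ c) r, Matrix.one_apply]

/-- Every orthogonal matrix is linked to `1` or to the reflection. -/
theorem linked_one_or_flip (U : ON N) (m : Fin N) :
    Linked U 1 ∨ Linked U (flipON m) := by
  have hmain : ∀ S : Finset (Fin N), (∃ V, Linked U V ∧ Fixed S V) ∨ Linked U 1 ∨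
      Linked U (flipON m) := by
    intro S
    induction S using Finset.induction_on with
    | empty => exact Or.inl ⟨U, fun _ _ => rfl, fun c hc => absurd hc (by simp)⟩
    | insert j S hj ih =>
      rcases ih with ⟨V₀, hUV₀, hV₀⟩ | h
      swap
      · exact Or.inr h
      obtain ⟨V, hV₀V, hV, hzero⟩ := clear_col hV₀ hj (Finset.univ.erase j) (by simp)
      have hUV := hUV₀.trans' hV₀V
      have hcol : ∀ r, r ≠ j → (V : Matrix (Fin N) (Fin N) ℝ) r j = 0 :=
        fun r hr => hzero r (Finset.mem_erase.2 ⟨hr, Finset.mem_univ r⟩)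
      have hjj : (V : Matrix (Fin N) (Fin N) ℝ) j j = 1 ∨
          (V : Matrix (Fin N) (Fin N) ℝ) j j = -1 := by
        have hs := col_sq V j
        rw [Finset.sum_eq_single j (fun r _ hr => by simp [hcol r hr]) (by simp)] at hs
        exact sq_eq_one_iff.1 hs
      rcases hjj with h1 | h1
      · refine Or.inl ⟨V, hUV, fun c hc r => ?_⟩
        rcases Finset.mem_insert.1 hc with rfl | hc
        · by_cases hr : r = c
          · subst hr; simp [h1]
          · simp [hr, hcol r hr]
        · exact hV c hc r
      by_cases hk : ∃ k, k ∉ S ∧ k ≠ j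
      · obtain ⟨k, hkS, hkj⟩ := hk
        refine Or.inl ⟨rotON hkj.symm Real.pi * V, hUV.trans' (Linked.rot _ _ V),
          fun c hc r => ?_⟩
        rcases Finset.mem_insert.1 hc with rfl | hc
        · rw [coe_rotON_mul]
          simp only [rotM, Matrix.of_apply, Real.cos_pi, Real.sin_pi]
          by_cases hr : r = c
          · subst hr; simp [h1]
          · by_cases hr' : r = k
            · subst hr'; simp [hr, hcol r hr]
            · simp [hr, hr', hcol r hr]
        · exact rot_fixed hV hkj.symm hj hkS Real.pi c hc r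
      · push Not at hk
        right; right
        have hVj : V = flipON j := by
          refine Subtype.ext (Matrix.ext fun r c => ?_)
          simp only [flipON, Matrix.diagonal_apply]
          by_cases hc : c = j
          · subst hc
            by_cases hr : r = c
            · subst hr; simp [h1]
            · simp [hr, hcol r hr]
          · have hcS : c ∈ S := by
              by_contra hcS; exact hc (hk c hcS)
            rw [hV c hcS r]
            by_cases hr : r = c
            · subst hr; simp [hc]
            · simp [hr]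
        by_cases hjm : j = m
        · rw [← hjm, ← hVj]; exact hUV
        · refine hUV.trans' ?_
          rw [hVj]
          have : flipON m = rotON hjm Real.pi * flipON j := by
            refine Subtype.ext (Matrix.ext fun r c => ?_)
            rw [coe_rotON_mul]
            simp only [rotM, flipON, Matrix.of_apply, Real.cos_pi, Real.sin_pi,
              Matrix.diagonal_apply]
            by_cases hrm : r = m
            · subst hrm
              by_cases hrc : r = c
              · subst hrc; simp [Ne.symm hjm]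
              · by_cases hjc : j = c <;> simp [hrc, Ne.symm hjm, hjc]
            · by_cases hrj : r = j
              · subst hrj
                by_cases hrc : r = c
                · subst hrc; simp [hjm]
                · simp [hrc]
              · simp [hrm, hrj]
          rw [this]; exact Linked.rot _ _ _
  rcases hmain Finset.univ with ⟨V, h1, h2⟩ | h
  · exact Or.inl (h2.eq_one ▸ h1)
  · exact h

theorem rotInv_add_flip {k : ON N → ℝ} (hk : RotInv k) (m : Fin N) (U : ON N) :
    k U + k (flipON m * U) = k 1 + k (flipON m) := by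
  have hsq : flipON m * flipON m = 1 := by
    have := flipON_flipON m (1 : ON N)
    rwa [mul_one] at this
  rcases linked_one_or_flip U m with h | h
  · have h2 := h _ (hk.flip m)
    beta_reduce at h2
    rw [h k hk, h2, mul_one]
  · have h2 := h _ (hk.flip m)
    beta_reduce at h2
    rw [h k hk, h2, hsq]; ring

/-- A polynomial as a continuous function on `O(N)`. -/
noncomputable def fn : Poly N →ₗ[ℝ] C(ON N, ℝ) where
  toFun p := ⟨fun U => evM (U : Matrix (Fin N) (Fin N) ℝ) p, continuous_evM p⟩
  map_add' p q := by ext U; simp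
  map_smul' r p := by ext U; simp

@[simp] theorem fn_apply (p : Poly N) (U : ON N) :
    fn p U = evM (U : Matrix (Fin N) (Fin N) ℝ) p := rfl

theorem fn_mul_apply (p q : Poly N) (U : ON N) : fn (p * q) U = fn p U * fn q U := by simp

theorem integrable_of_cont' {g : ON N → ℝ} (hg : Continuous g) : Integrable g (haarON N) :=
  hg.integrable_of_hasCompactSupport (HasCompactSupport.of_compactSpace _)

/-- The Dirichlet form. -/
noncomputable def dform (p q : Poly N) : ℝ :=
  ∑ a, ∫ U, fn (rd a p) U * fn (rd a q) U ∂(haarON N)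

theorem integrable_fn_mul (p q : Poly N) :
    Integrable (fun U => fn p U * fn q U) (haarON N) :=
  ((fn p).continuous.mul (fn q).continuous).integrable_of_hasCompactSupport
    (HasCompactSupport.of_compactSpace _)

theorem integrable_fn (p : Poly N) : Integrable (fun U => fn p U) (haarON N) :=
  (fn p).continuous.integrable_of_hasCompactSupport (HasCompactSupport.of_compactSpace _)

theorem integral_rd (a : Fin N × Fin N) (p : Poly N) : ∫ U, fn (rd a p) U ∂(haarON N) = 0 := by
  simpa using integral_rd_weight (k := fun _ => (1:ℝ)) continuous_const (fun _ _ _ _ _ => rfl) a p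

theorem integral_rd_mul (a : Fin N × Fin N) (p q : Poly N) :
    ∫ U, fn (rd a p) U * fn q U ∂(haarON N) = - ∫ U, fn p U * fn (rd a q) U ∂(haarON N) := by
  have h := integral_rd a (p * q)
  have h2 : (fun U => fn (rd a (p * q)) U) =
      fun U => fn p U * fn (rd a q) U + fn (rd a p) U * fn q U := by
    funext U; simp [Derivation.leibniz, mul_comm]
  rw [h2, integral_add (integrable_fn_mul _ _) (integrable_fn_mul _ _)] at h
  linarith

theorem integral_mul_lap (p q : Poly N) :
    ∫ U, fn p U * fn (lap N q) U ∂(haarON N) = - dform p q := by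
  have h1 : (fun U => fn p U * fn (lap N q) U) =
      fun U => ∑ a, fn p U * fn (rd a (rd a q)) U := by
    funext U; simp [lap_apply, Finset.mul_sum]
  rw [h1, integral_finsetSum _ fun a _ => integrable_fn_mul _ _, dform, ← Finset.sum_neg_distrib]
  exact Finset.sum_congr rfl fun a _ => by
    rw [integral_rd_mul]; simp

theorem integral_lap (q : Poly N) : ∫ U, fn (lap N q) U ∂(haarON N) = 0 := by
  have h : (fun U => fn (lap N q) U) = fun U => ∑ a, fn (rd a (rd a q)) U := by
    funext U; simp [lap_apply]
  rw [h, integral_finsetSum _ fun a _ => integrable_fn _]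
  simp [integral_rd, -fn_apply]

theorem triple_le (N : ℕ) (y : Fin N × Fin N → ℝ) (x : Fin N × Fin N → Fin N × Fin N → ℝ)
    (hx : ∀ i j k : Fin N, j ≠ i → j ≠ k → x (i, j) (j, k) - x (j, k) (i, j) = - y (i, k)) :
    ((N : ℝ) - 2) * ∑ a, y a ^ 2 ≤ 4 * ∑ a, ∑ b, x a b ^ 2 := by
  set g : (Fin N × Fin N) × (Fin N × Fin N) → ℝ := fun p => (x p.1 p.2 - x p.2 p.1) ^ 2 with hg
  have h2 : ∑ p, g p ≤ 4 * ∑ a, ∑ b, x a b ^ 2 := by
    have : ∑ p, g p ≤ ∑ p : (Fin N × Fin N) × (Fin N × Fin N),
        (2 * x p.1 p.2 ^ 2 + 2 * x p.2 p.1 ^ 2) :=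
      Finset.sum_le_sum fun p _ => by simp only [hg]; nlinarith [sq_nonneg (x p.1 p.2 + x p.2 p.1)]
    have hswap : ∑ p : (Fin N × Fin N) × (Fin N × Fin N), 2 * x p.2 p.1 ^ 2 =
        ∑ p : (Fin N × Fin N) × (Fin N × Fin N), 2 * x p.1 p.2 ^ 2 :=
      Fintype.sum_equiv (Equiv.prodComm _ _) _ _ fun _ => rfl
    rw [Finset.sum_add_distrib, hswap, ← Finset.mul_sum,
      Fintype.sum_prod_type (f := fun p : (Fin N × Fin N) × (Fin N × Fin N) => x p.1 p.2 ^ 2)] at this
    linarith
  refine le_trans ?_ h2
  set S : Finset (Fin N × Fin N × Fin N) :=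
    Finset.univ.filter fun t => t.2.1 ≠ t.1 ∧ t.2.1 ≠ t.2.2 with hS
  set f : Fin N × Fin N × Fin N → (Fin N × Fin N) × (Fin N × Fin N) :=
    fun t => ((t.1, t.2.1), (t.2.1, t.2.2)) with hf
  have hinj : Set.InjOn f S := by
    intro s _ t _ h; simp only [hf, Prod.mk.injEq] at h; ext <;> simp_all
  have h3 : ∑ t ∈ S, g (f t) ≤ ∑ p, g p := by
    rw [← Finset.sum_image hinj]
    exact Finset.sum_le_sum_of_subset_of_nonneg (Finset.subset_univ _) fun p _ _ => sq_nonneg _
  refine le_trans ?_ h3
  rw [Finset.mul_sum]
  calc ∑ a, ((N:ℝ) - 2) * y a ^ 2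
      ≤ ∑ a : Fin N × Fin N, ∑ j, if j ≠ a.1 ∧ j ≠ a.2 then y a ^ 2 else 0 := by
        refine Finset.sum_le_sum fun a _ => ?_
        rw [← Finset.sum_filter, Finset.sum_const, nsmul_eq_mul]
        refine mul_le_mul_of_nonneg_right ?_ (sq_nonneg _)
        have hc : (Finset.univ.filter fun j : Fin N => j ≠ a.1 ∧ j ≠ a.2) =
            ({a.1, a.2} : Finset (Fin N))ᶜ := by ext j; simp
        rw [hc, Finset.card_compl, Fintype.card_fin]
        have h4 : ({a.1, a.2} : Finset (Fin N)).card ≤ 2 := Finset.card_le_two
        rw [Nat.cast_sub (le_trans (Finset.card_le_univ _) (by simp))]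
        have : (({a.1, a.2} : Finset (Fin N)).card : ℝ) ≤ 2 := by exact_mod_cast h4
        linarith
    _ = ∑ t ∈ S, g (f t) := by
        rw [hS, Finset.sum_filter, Fintype.sum_prod_type, Fintype.sum_prod_type]
        refine Finset.sum_congr rfl fun i _ => ?_
        rw [Fintype.sum_prod_type, Finset.sum_comm]
        refine Finset.sum_congr rfl fun j _ => Finset.sum_congr rfl fun k _ => ?_
        simp only [hg, hf]
        split_ifs with h
        · rw [hx i j k h.1 h.2]; ring
        · rfl

/-- The curvature bound. -/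
theorem dform_le_lap_sq (p : Poly N) :
    ((N : ℝ) - 2) * dform p p ≤ 4 * ∫ U, fn (lap N p) U * fn (lap N p) U ∂(haarON N) := by
  have hid : ∫ U, fn (lap N p) U * fn (lap N p) U ∂(haarON N) =
      ∑ b, ∑ a, ∫ U, fn (rd a (rd b p)) U * fn (rd a (rd b p)) U ∂(haarON N) := by
    calc ∫ U, fn (lap N p) U * fn (lap N p) U ∂(haarON N)
        = - dform (lap N p) p := integral_mul_lap _ _
      _ = - ∑ b, ∫ U, fn (rd b p) U * fn (lap N (rd b p)) U ∂(haarON N) := by
          simp only [dform, rd_lap]
          congr 1
          refine Finset.sum_congr rfl fun b _ => ?_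
          simp only [mul_comm]
      _ = _ := by
          simp only [integral_mul_lap, dform, Finset.sum_neg_distrib, neg_neg]
  rw [hid]
  simp only [dform, ← integral_finsetSum _ fun a _ => integrable_fn_mul _ _, ← integral_const_mul]
  rw [← integral_finsetSum _ (fun b _ => integrable_finsetSum _ fun a _ => integrable_fn_mul _ _),
    ← integral_const_mul]
  refine integral_mono (((integrable_finsetSum _ fun a _ => integrable_fn_mul _ _)).const_mul _)
    ((integrable_finsetSum _ fun b _ => integrable_finsetSum _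
      fun a _ => integrable_fn_mul _ _).const_mul _) fun U => ?_
  simp only [← sq]
  have h := triple_le N (fun a => fn (rd a p) U) (fun a b => fn (rd a (rd b p)) U) ?_
  · rwa [Finset.sum_comm] at h
  · intro i j k hji hjk
    rw [← ContinuousMap.sub_apply, ← map_sub, rd_comm]
    simp [kd, hji.symm, hjk, rd_self]

/-- Poincaré inequality for polynomials invariant under one reflection. -/
theorem poincare_poly (m : Fin N) (f : Poly N) (hN : 2 < N)
    (hf : ∀ U, fn f (flipON m * U) = fn f U) :
    ((N : ℝ) - 2) * (∫ U, fn f U * fn f U ∂(haarON N) - (∫ U, fn f U ∂(haarON N)) ^ 2) ≤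
      4 * dform f f := by
  obtain ⟨d, hd⟩ := exists_mem_pow f
  set W : Submodule ℝ (Poly N) := lin N ^ d with hW
  have : Module.Finite ℝ W := finite_pow d
  set ψ : Poly N →ₗ[ℝ] Lp ℝ 2 (haarON N) :=
    (ContinuousMap.toLp (E := ℝ) 2 (haarON N) ℝ).toLinearMap ∘ₗ fn with hψ
  have hinner : ∀ p q, inner ℝ (ψ p) (ψ q) = ∫ U, fn p U * fn q U ∂(haarON N) := by
    intro p q
    simp [hψ, ContinuousMap.inner_toLp, mul_comm]
  set K : Submodule ℝ (Lp ℝ 2 (haarON N)) := Submodule.map (ψ ∘ₗ lap N) W with hK
  obtain ⟨h, hhW, hh⟩ := Submodule.mem_map.1 (K.starProjection_apply_mem (ψ f))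
  set p := f - lap N h with hp
  have hpW : p ∈ W := Submodule.sub_mem _ hd (lap_mem_pow d hhW)
  have horth : ∀ q ∈ W, ∫ U, fn p U * fn (lap N q) U ∂(haarON N) = 0 := by
    intro q hq
    rw [← hinner, hp, map_sub]
    rw [LinearMap.comp_apply] at hh
    rw [hh]
    exact K.starProjection_inner_eq_zero (ψ f) _ (Submodule.mem_map.2 ⟨q, hq, rfl⟩)
  have hpp : dform p p = 0 := by
    have := integral_mul_lap p p
    rw [horth p hpW] at this; linarith
  have hzero : ∀ a U, fn (rd a p) U = 0 := by
    intro a U
    have h1 : ∫ U, fn (rd a p) U * fn (rd a p) U ∂(haarON N) = 0 :=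
      (Finset.sum_eq_zero_iff_of_nonneg fun a _ => integral_nonneg fun U =>
        mul_self_nonneg _).1 hpp a (Finset.mem_univ a)
    have h2 := (((fn (rd a p)).continuous.mul (fn (rd a p)).continuous).ae_eq_iff_eq
      (haarON N) (continuous_const (y := (0:ℝ)))).1
      ((integral_eq_zero_iff_of_nonneg (fun U => mul_self_nonneg _) (integrable_fn_mul _ _)).1 h1)
    exact mul_self_eq_zero.1 (congrFun h2 U)
  have hrot : RotInv fun U => fn p U := by
    intro i j hij θ U
    have hconst : ∀ t, HasDerivAt
        (fun t => evM (rotM i j t (U : Matrix (Fin N) (Fin N) ℝ)) p) 0 t := by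
      intro t
      have h1 := hasDerivAt_evM_rot hij (U : Matrix (Fin N) (Fin N) ℝ) p t
      rw [← coe_rotON_mul hij] at h1
      have h2 := hzero (i, j) (rotON hij t * U)
      rw [fn_apply] at h2
      rwa [h2] at h1
    have := is_const_of_deriv_eq_zero (fun t => (hconst t).differentiableAt)
      (fun t => (hconst t).deriv) θ 0
    show fn p (rotON hij θ * U) = fn p U
    rw [fn_apply, fn_apply, coe_rotON_mul, this]
    congr 2
    ext a b; simp only [rotM, Matrix.of_apply]; split_ifs <;> simp_all
  set S := fn p 1 + fn p (flipON m) with hS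
  have hsum : ∀ U, fn p U + fn p (flipON m * U) = S := rotInv_add_flip hrot m
  set c := ∫ U, fn f U ∂(haarON N) with hc
  have hLh : ∫ U, fn (lap N h) U ∂(haarON N) = 0 := integral_lap h
  have hpc : ∫ U, fn p U ∂(haarON N) = c := by
    have : (fun U => fn p U) = fun U => fn f U - fn (lap N h) U := by
      funext U; simp [hp]
    rw [this, integral_sub (integrable_fn _) (integrable_fn _), hLh, sub_zero]
  have hS2 : c + c = S := by
    have h1 : ∫ U, (fn p U + fn p (flipON m * U)) ∂(haarON N) = S := by simp [hsum, -fn_apply]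
    rw [integral_add (integrable_fn _)
      (integrable_of_cont' (g := fun U => fn p (flipON m * U))
        ((fn p).continuous.comp (continuous_const_mul _))),
      integral_mul_left_eq_self (fun U => fn p U), hpc] at h1
    exact h1
  have hfp : ∫ U, fn f U * fn p U ∂(haarON N) = c ^ 2 := by
    have h1 := integral_mul_left_eq_self (μ := haarON N) (fun U => fn f U * fn p U) (flipON m)
    have h2 : (fun U => fn f (flipON m * U) * fn p (flipON m * U)) =
        fun U => S * fn f U - fn f U * fn p U := by
      funext U; rw [hf, ← hsum U]; ring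
    rw [h2, integral_sub ((integrable_fn f).const_mul S) (integrable_fn_mul _ _),
      integral_const_mul, ← hc] at h1
    rw [← hS2] at h1; linarith
  have hfLh : ∫ U, fn f U * fn (lap N h) U ∂(haarON N) =
      ∫ U, fn f U * fn f U ∂(haarON N) - c ^ 2 := by
    have h2 : (fun U => fn f U * fn (lap N h) U) =
        fun U => fn f U * fn f U - fn f U * fn p U := by
      funext U; simp [hp]; ring
    rw [h2, integral_sub (integrable_fn_mul _ _) (integrable_fn_mul _ _), hfp]
  have hV : ∫ U, fn (lap N h) U * fn (lap N h) U ∂(haarON N) =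
      ∫ U, fn f U * fn (lap N h) U ∂(haarON N) := by
    have h2 : (fun U => fn (lap N h) U * fn (lap N h) U) =
        fun U => fn f U * fn (lap N h) U - fn p U * fn (lap N h) U := by
      funext U; simp [hp]; ring
    rw [h2, integral_sub (integrable_fn_mul _ _) (integrable_fn_mul _ _), horth h hhW, sub_zero]
  set t : ℝ := 4 / ((N:ℝ) - 2) with ht
  have hN2 : (0:ℝ) < (N:ℝ) - 2 := by
    have : (2:ℝ) < N := by exact_mod_cast hN
    linarith
  have ht0 : 0 < t := by positivity
  have hCS : - dform f h ≤ t / 2 * dform f f + 1 / (2 * t) * dform h h := by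
    simp only [dform, Finset.mul_sum, ← Finset.sum_neg_distrib, ← Finset.sum_add_distrib]
    refine Finset.sum_le_sum fun a _ => ?_
    rw [← integral_const_mul, ← integral_const_mul, ← integral_neg,
      ← integral_add ((integrable_fn_mul _ _).const_mul _) ((integrable_fn_mul _ _).const_mul _)]
    refine integral_mono (integrable_fn_mul _ _).neg
      (((integrable_fn_mul _ _).const_mul _).add ((integrable_fn_mul _ _).const_mul _)) fun U => ?_
    generalize fn (rd a f) U = x
    generalize fn (rd a h) U = y
    simp only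
    rw [div_mul_eq_mul_div, one_div_mul_eq_div, div_add_div _ _ (by norm_num) (by positivity),
      le_div_iff₀ (by positivity)]
    nlinarith [sq_nonneg (t * x + y)]
  have hEh := dform_le_lap_sq h
  have h4 := integral_mul_lap f h
  have hkey : ((N:ℝ) - 2) * (t / 2) = 2 ∧ ((N:ℝ) - 2) * (1 / (2 * t)) = ((N:ℝ) - 2) ^ 2 / 8 := by
    constructor <;> rw [ht] <;> field_simp <;> ring
  have h5 := mul_le_mul_of_nonneg_left hCS hN2.le
  rw [mul_add, ← mul_assoc, ← mul_assoc, hkey.1, hkey.2] at h5
  nlinarith [mul_le_mul_of_nonneg_left hEh hN2.le]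

end Vale.Agent.P166
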